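import Crest.Agent.R78.NearM
import Crest.Agent.R124.Amp

/-! Row 78, part S0104 (near inclusions that are not implemented by unitaries near `1`).
PLAN (complete and elementary; the owner may split the file and add files `R78/Near*.lean`).

Universal constants first: `k` with `6/√k ≤ 10⁻⁴` (e.g. `k = 6⁴·10⁸`, keep it symbolic), `G = FreeGroup (Fin k)`,
`r < 1`, `c = √(1 - r²) > 0` with `2 c + 2 (1 - r) ≤ 10⁻⁵`, `C₀ = 4/((1 - r) c)`, `ε₀ = 10⁻⁵`.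
MODEL (depends on `n, m`, large in terms of `δ`).  A separable Hilbert space `𝒦` with: `PSD e¹ λ¹`,
`PSD e² λ²`, unitaries `U, V` with `V U = ω U V`, `ω ≠ 1`, `‖ω - 1‖ ≤ κ` (clock and shift on `ZMod n`),
matrix units `f : Fin (m+1) → Fin (m+1) → B(𝒦)` with `∑ f j j = 1`, all these families commuting with
each other (except `U` with `V`), `‖∑_s λⁱ (of s)‖ ≤ 2 √k` (`norm_sum_pingpong`, `hd_mul`), and an isometry
`J₀ : F → 𝒦` of a nontrivial finite-dimensional `F` with range projection `e¹ 1 1 * e² 1 1` intertwining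
unitaries `U₀, V₀` on `F` with `U, V`.  E.g. `𝒦 = ℓ²(G; ℓ²(G; F))`, `F = EuclideanSpace ℂ (ZMod n × Fin (m+1))`.
`α = π^U` (data `e¹, λ¹`), `β = π^V` (data `e², λ²`), `σ = π^S` (data `e¹, λ¹`) for the cyclic shift
`S = ∑ f (j - 1) j`.  `ps_lip`: `‖[U, β b]‖ ≤ C₀ κ`, `‖[α a, β b]‖ ≤ C₀² κ` (`T = β b` commutes with
`e¹, λ¹` by `IsPS.comm`), `σ a` commutes with `β b`.
`Γ = G × G`, `H = lp (fun _ : Γ => 𝒦) 2`, `L γ`, `ρ γ` left and right shifts (`R194.shift`), `D T`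
constant diagonal, `W₁ = diagL (α γ.1)`, `W₂ = diagL (β γ.2)`, `Wσ = diagL (σ γ.1)`, `W = W₁ W₂`.
`N = cent {ρ γ}`, `M = cent ({W ρ γ W*} ∪ {W (D T) W*})` (`R124.cent`).
(A) Near inclusion.  `x ∈ M`, `‖x‖ ≤ 1`; `x₀ = W* x W` commutes with all `ρ γ`, `D T`.
`ρ γ W₂ = W₂ D (β γ.2) ρ γ`, hence `x₂ = W₂ x₀ W₂* ∈ N`; `x₂` commutes with `D T` whenever `T` commutes
with all `β b`, and `‖[x₂, D U]‖ ≤ 2 C₀ κ`; `x = W₁ x₂ W₁*`.  Likewise `Wσ x₂ Wσ* ∈ N`.  Let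
`J = ∑_{j=1}^m m^(-1/2) U^j f j 0`: `J* J = f 0 0`, `‖S J - J U‖ ≤ √(2/m)` (or `2/√m`), `J` commutes with
`e¹, λ¹`, so `‖σ a J - J α a‖ ≤ C₀ √(2/m)` and the same for adjoints (`a⁻¹`);
`‖[x₂, D J]‖ ≤ m ‖[x₂, D U]‖` (orthogonal ranges, or crudely `m² ‖[x₂, D U]‖`).  So
`y₀ = D J* Wσ x₂ Wσ* D J ∈ N` is close to `W₁ D(J* J) x₂ W₁* = D (f 0 0) x`, and
`y = ∑_j D (f j 0) y₀ D (f 0 j) ∈ N` is close to `x` (`x` commutes with `D (f i j)`;
`‖∑_j f j 0 d f 0 j‖ ≤ ‖d‖`).  Choose `m`, then `n`.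
(B) Obstruction.  Let `u` be unitary, `‖u - 1‖ < ε₀`, `u M u* ⊆ N`.  `m γ = W (L γ) W* ∈ M`,
`T γ = u (m γ) u* * ρ γ` is a unitary representation of `Γ` (`u m u*` commutes with `ρ`), so
`X = k⁻¹ ∑_s T (of s, 1)` commutes with `Y = k⁻¹ ∑_s T (1, of s)` and with `star Y`.
`m (g, 1) = L (g, 1) D (α g)` exactly; `m (1, h) = L (1, h) diagL (α a β h (α a)*)` is within `C₀² κ` of
`L (1, h) D (β h)`.  `α (of s)` is within `2 c + 2 (1 - r)` of `α₁ s = rot e¹ 0 1 U 1 (of s) * λ¹ (of s)`,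
and in the model `e x y * λ g = e x (g⁻¹ y)`; so `α₁ s * e¹ 1 1 = e¹ 1 1 * U` and
`(α₁ s - λ¹ s) (1 - e¹ 1 1) = -(e¹ 1 s⁻¹ + e¹ s s⁻¹ U*) e¹ s⁻¹ s⁻¹`, so
`‖∑_s α₁ s (1 - e¹ 1 1)‖ ≤ 4 √k` (`norm_sum_mul_proj_le`).  With `P₁` the multiplication by the indicator
of `γ.1 = 1` and `t s = L (s,1) ρ (s,1) D (α₁ s)`: `t s P₁ = P₁ D (α₁ s)` and
`‖∑ t s (1 - P₁)‖ ≤ 2 √k` (`norm_sum_pingpong`, `hd_conj`, projections = indicators of
`hd γ.1 = (s, false)`, `hd γ.1 = (s, true)`).  So `‖X - p D U‖ ≤ 2 ε₀ + 10⁻⁵ + 6/√k ≤ 1/4000` for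
`p = P₁ D (e¹ 1 1)`, similarly `‖Y - q D V‖ ≤ 1/4000`, `q = P₂ D (e² 1 1)`.  `corner` gives commuting
`A, B`; compress with the isometry `J₁ = single (1,1) ∘ J₀` (`J₁ J₁* = p q`) and apply `winding`. -/

set_option autoImplicit false
set_option maxHeartbeats 800000

namespace Crest.Agent.R78

open Crest.Agent.R194 Finset
open FreeGroup (of)

section
variable {α F K : Type} [DecidableEq α] [Fintype α] [NormedAddCommGroup F] [InnerProductSpace ℂ F]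
  [CompleteSpace F] [NormedAddCommGroup K] [InnerProductSpace ℂ K] [CompleteSpace K]

theorem near_main [Nonempty α] [FiniteDimensional ℂ F] [Nontrivial F]
    {Θ : (F →L[ℂ] F) →⋆ₐ[ℂ] (K →L[ℂ] K)} {e₁ e₂ : FreeGroup α → FreeGroup α → K →L[ℂ] K}
    {l₁ l₂ : FreeGroup α →* (K →L[ℂ] K)} {j : F →L[ℂ] K} (hM : Mdl Θ e₁ e₂ l₁ l₂ j)
    {κ : Type} [Fintype κ] [DecidableEq κ] {η : ℝ} {ω : ℂ} {U V S J p : F →L[ℂ] F}
    {v : κ → F →L[ℂ] F} (hF : FinP η ω U V S J p v) (hω : ω ≠ 1) (hω' : ‖ω - 1‖ ≤ η)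
    (hη : η ≤ 1 / 2) {c r : ℝ} (hc : 0 ≤ c) (hr : 0 ≤ r) (hcr : c ^ 2 + r ^ 2 = 1)
    (h0 : 0 < (1 - r) * c) (h1 : 2 * c + 2 * (1 - r) ≤ 1 / 10 ^ 5)
    (hk : 6 / √(Fintype.card α) ≤ 1 / 10 ^ 4)
    (h2 : 4 / ((1 - r) * c) * (4 / ((1 - r) * c) * η) ≤ 1 / 10 ^ 5) :
    ∃ M N : VonNeumannAlgebra (LL (FreeGroup α × FreeGroup α) K),
      (∀ x ∈ M, ‖x‖ ≤ 1 → ∃ y ∈ N, ‖x - y‖ ≤ 4 * (4 / ((1 - r) * c) * η)) ∧
      ∀ u, u ∈ unitary (LL (FreeGroup α × FreeGroup α) K →L[ℂ] LL (FreeGroup α × FreeGroup α) K) →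
        (∀ x ∈ M, u * x * star u ∈ N) → 1 / 10 ^ 5 ≤ ‖u - 1‖ := by
  have hG := hF.map Θ
  have p1 := hM.h1.toPSD
  have p2 := hM.h2.toPSD
  obtain ⟨a, ha⟩ := exists_ps p1 hc hr hcr hG.hU (hM.c1 U)
  obtain ⟨b, hb⟩ := exists_ps p2 hc hr hcr hG.hV (hM.c2 V)
  obtain ⟨σ, hσ⟩ := exists_ps p1 hc hr hcr hG.hS (hM.c1 S)
  have ra : Rep a := ha.star_pi
  have rb : Rep b := hb.star_pi
  have cb : ∀ h, Cm e₁ l₁ (b h) := fun h =>
    ⟨fun x y => (hb.comm p2 (hM.ce x y) ((hM.c1 V).1 x y).symm h).symm,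
      fun g => (hb.comm p2 (hM.cl g) ((hM.c1 V).2 g).symm h).symm⟩
  have hη0 : 0 ≤ η := (norm_nonneg _).trans hω'
  have hη1 : 0 ≤ 4 / ((1 - r) * c) * η := by positivity
  have ab : ∀ g h, ‖a g * b h - b h * a g‖ ≤ 4 / ((1 - r) * c) * (4 / ((1 - r) * c) * η) :=
    fun g h => ps_lip_same p1 ha ha (cb h) h0 ((norm_sub_rev _ _).trans_le (ps_lip_same p2 hb hb
      (hM.c2 U) h0 ((norm_comm_of_weyl hG.hU hG.hV hG.VU).trans hω') h)) g
  let Γ := FreeGroup α × FreeGroup α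
  let π₁ : Γ →* FreeGroup α := MonoidHom.fst _ _
  let π₂ : Γ →* FreeGroup α := MonoidHom.snd _ _
  have hW := mul_mem (ra.W_unitary π₁) (rb.W_unitary π₂)
  have near := fun x => near_incl (x := x) ra rb hσ.star_pi π₁ π₂ hη1 hG.pp hG.vv hG.vp hG.sum hG.JJ
    (fun g h => (hσ.comm p1 (cb h) (hb.comm p2 (hM.c2 S) hG.SV h).symm g).symm)
    (ps_lip_same p1 ha hσ (hM.c1 J) h0 hG.SJ) (ps_lip_same p2 hb hb (hM.c2 J) h0 hG.VJ)
    (fun i => ha.comm p1 (hM.c1 _) (hG.vU i)) (fun i => hb.comm p2 (hM.c2 _) (hG.vV i))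
    (ha.comm p1 (hM.c1 _) hG.pU)
  have near' : ∀ x, ‖x‖ ≤ 1 → (∀ γ, Rt K γ * x = x * Rt K γ) → (∀ T, Dg Γ K T * x = x * Dg Γ K T) →
      ∃ y, (∀ γ, Rt K γ * y = y * Rt K γ) ∧ ‖Wp a π₁ * Wp b π₂ * x * star (Wp a π₁ * Wp b π₂) - y‖ ≤
        4 * (4 / ((1 - r) * c) * η) := fun x h h' h'' => by
    simpa only [star_mul, mul_assoc] using near x h h' h''
  have m1 := fun γ => conj_Lf_fst ra rb π₁ π₂ (γ := γ)
  have m2 := fun γ h => conj_Lf_snd ra rb π₁ π₂ (γ := γ) h (by positivity) ab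
  clear near
  generalize Wp a π₁ * Wp b π₂ = W at hW near' m1 m2
  have cj : ∀ x y, W * x * star W * (W * y * star W) = W * (x * y) * star W := fun x y => by
    rw [mul_assoc (W * x), ← mul_assoc (star W), ← mul_assoc (star W), hW.1]
    simp only [one_mul, mul_assoc]
  have memN : ∀ y, y ∈ R124.cent (Set.range (Rt K : Γ → _)) ↔ ∀ γ, Rt K γ * y = y * Rt K γ :=
    fun y => by
      rw [R124.mem_cent, Set.forall_mem_range]
      exact ⟨fun h γ => (h γ).1, fun h γ => ⟨h γ, by rw [star_Rt]; exact h _⟩⟩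
  have memM : ∀ x, W * x * star W ∈ R124.cent ((fun y => W * y * star W) ''
      (Set.range (Rt K : Γ → _) ∪ Set.range (Dg Γ K))) ↔
      (∀ γ, Rt K γ * x = x * Rt K γ) ∧ ∀ T, Dg Γ K T * x = x * Dg Γ K T := fun x => by
    have inj : ∀ y z, W * y * star W = W * z * star W ↔ y = z := fun y z =>
      ⟨fun h => by
        have := congrArg (fun t => star W * t * W) h
        simpa only [← mul_assoc, hW.1, one_mul, mul_assoc _ (star W) W, mul_one] using this,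
      fun h => by rw [h]⟩
    have st : ∀ y, star (W * y * star W) = W * star y * star W := fun y => by
      simp only [star_mul, star_star, mul_assoc]
    rw [R124.mem_cent, Set.forall_mem_image]
    simp only [st, cj, inj]
    refine ⟨fun h => ⟨fun γ => (h (Or.inl ⟨γ, rfl⟩)).1, fun T => (h (Or.inr ⟨T, rfl⟩)).1⟩, ?_⟩
    rintro h _ (⟨γ, rfl⟩ | ⟨T, rfl⟩)
    · exact ⟨h.1 γ, by rw [star_Rt]; exact h.1 _⟩
    · exact ⟨h.2 T, by rw [← map_star]; exact h.2 _⟩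
  refine ⟨R124.cent ((fun y => W * y * star W) '' (Set.range (Rt K : Γ → _) ∪ Set.range (Dg Γ K))),
    R124.cent (Set.range (Rt K : Γ → _)), fun x hx hx1 => ?_, fun u hu h => ?_⟩
  · have e : W * (star W * x * W) * star W = x := by
      simp only [← mul_assoc, hW.2, one_mul, mul_assoc _ W (star W), mul_one]
    rw [← e, memM] at hx
    obtain ⟨y, hy, hy'⟩ := near' _ ((norm_mul_le_left (norm_unitary_le hW)).trans
      ((norm_mul_le_right (norm_unitary_le (Unitary.star_mem hW))).trans hx1)) hx.1 hx.2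
    exact ⟨y, (memN y).2 hy, e ▸ hy'⟩
  by_contra hn
  have hn' := (not_le.1 hn).le
  have hN : ∀ γ γ' : Γ, Rt K γ' * (u * (W * Lf K γ * star W) * star u) =
      u * (W * Lf K γ * star W) * star u * Rt K γ' := fun γ => (memN _).1
    (h _ ((memM _).2 ⟨fun γ' => (Lf_Rt γ γ').symm, fun T => Dg_Lf T γ⟩))
  obtain ⟨T, hT⟩ : ∃ T : Γ → _, ∀ γ, T γ = u * (W * Lf K γ * star W) * star u * Rt K γ :=
    ⟨_, fun _ => rfl⟩
  have Tm : ∀ γ γ', T γ * T γ' = T (γ * γ') := fun γ γ' => by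
    rw [hT, hT, hT, mul_assoc _ (Rt K γ), ← mul_assoc (Rt K γ), hN, map_mul, map_mul, ← cj]
    simp only [← mul_assoc, mul_assoc _ (star u) u, hu.1, mul_one]
  have Ts : ∀ γ, star (T γ) = T γ⁻¹ := fun γ => by
    rw [hT, hT, ← hN]
    simp only [star_mul, star_star, star_Lf, star_Rt, mul_assoc]
  have Tc : ∀ g h : FreeGroup α, Commute (T (MonoidHom.inl _ _ g)) (T (MonoidHom.inr _ _ h)) :=
    fun g h => by
      rw [Commute, SemiconjBy, Tm, Tm]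
      exact congrArg T (Prod.ext ((mul_one g).trans (one_mul g).symm)
        ((one_mul h).trans (mul_one h).symm))
  have Te : ∀ (γ : Γ) (B : K →L[ℂ] K) (ε : ℝ), ‖W * Lf K γ * star W - Lf K γ * Dg Γ K B‖ ≤ ε →
      ‖T γ - Lf K γ * Rt K γ * Dg Γ K B‖ ≤ 2 / 10 ^ 5 + ε := fun γ B ε hε => by
    rw [hT, mul_assoc (Lf K γ), ← Dg_Rt, ← mul_assoc (Lf K γ), ← sub_mul]
    refine (norm_mul_le_left (norm_unitary_le (rep_unitary star_Rt _))).trans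
      ((norm_sub_le_norm_sub_add_norm_sub _ _ _).trans (add_le_add ?_ hε))
    refine (norm_conj_sub_le hu ((norm_conj_le hW).trans
      (norm_unitary_le (rep_unitary star_Lf _)))).trans ?_
    linarith
  have hX := norm_avg_sub (ι := MonoidHom.inl _ _) (π := π₁) (fun _ => rfl)
    (fun x g hx => Prod.ext (by change x.1 * g = g * x.1; rw [show x.1 = 1 from hx]; simp)
      ((mul_one x.2).trans (one_mul x.2).symm))
    hM.h1 ha (fun s => T (MonoidHom.inl _ _ (of s)))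
    fun s => Te _ _ 0 (by rw [m1 _ rfl]; exact (congrArg norm (sub_self _)).trans_le norm_zero.le)
  have hY := norm_avg_sub (ι := MonoidHom.inr _ _) (π := π₂) (fun _ => rfl)
    (fun x g hx => Prod.ext ((mul_one x.1).trans (one_mul x.1).symm)
      (by change x.2 * g = g * x.2; rw [show x.2 = 1 from hx]; simp))
    hM.h2 hb (fun s => T (MonoidHom.inr _ _ (of s))) fun s => Te _ _ _ (m2 _ rfl)
  have hI : ∀ (P : Γ → Prop) (B : K →L[ℂ] K), Commute (Dg Γ K B) (Ind K P) := fun P B => Dg_Ind B P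
  have hD : ∀ {B C : K →L[ℂ] K}, B * C = C * B → Commute (Dg Γ K B) (Dg Γ K C) :=
    fun h => Commute.map h (Dg Γ K)
  have hP : ∀ (P : Γ → Prop) {B : K →L[ℂ] K}, IsStarProjection B →
      IsStarProjection (Ind K P * Dg Γ K B) := fun P B hB =>
    (Ind_proj P).mul (hB.map (Dg Γ K)) (hI P B).symm
  have hII : Commute (Ind K fun x : Γ => π₁ x = 1) (Ind K fun x : Γ => π₂ x = 1) := by
    simp only [Commute, SemiconjBy, Ind_mul_Ind, and_comm]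
  have hi := hM.iso.step (Γ := Γ) (p := fun x => π₁ x = 1 ∧ π₂ x = 1) 
    fun x => (Prod.ext_iff (x := x) (y := 1)).symm
  rw [← Ind_mul_Ind, map_mul, (hI _ _).symm.mul_mul_mul_comm] at hi
  refine obstruction hi hF.hU hF.hV hω (hω'.trans hη) hF.VU ?_ ?_ (hP _ (p1.proj 1))
    (hP _ (p2.proj 1)) ((hII.mul_right (hI _ _).symm).mul_left
      ((hI _ _).mul_right (hD ((hM.ce 1 1).1 1 1))))
    (Unitary.map_mem _ hG.hU) (Unitary.map_mem _ hG.hV)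
    ((hI _ _).mul_right (hD ((hM.c1 U).1 1 1))) ((hI _ _).mul_right (hD ((hM.c2 U).1 1 1)))
    ((hI _ _).mul_right (hD ((hM.c1 V).1 1 1))) ((hI _ _).mul_right (hD ((hM.c2 V).1 1 1)))
    (hX.trans (by linarith)) (hY.trans (by linarith))
  · exact ((Commute.sum_left _ _ _ fun s _ => Commute.sum_right _ _ _ fun t _ =>
      Tc _ _).smul_left _).smul_right _
  · rw [star_smul, star_sum]
    refine ((Commute.sum_left _ _ _ fun s _ => Commute.sum_right _ _ _ fun t _ =>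
      ?_).smul_left _).smul_right _
    rw [Ts, ← map_inv]
    exact Tc _ _

end

theorem s0104 :
    ∃ ε₀ : ℝ, 0 < ε₀ ∧ ∀ δ : ℝ, 0 < δ →
      ∃ (H : Type) (_ : NormedAddCommGroup H) (_ : InnerProductSpace ℂ H) (_ : CompleteSpace H)
        (_ : TopologicalSpace.SeparableSpace H) (M N : VonNeumannAlgebra H),
        (∀ x ∈ M, ‖x‖ ≤ 1 → ∃ y ∈ N, ‖x - y‖ < δ) ∧
        ∀ u : H →L[ℂ] H, u ∈ unitary (H →L[ℂ] H) →
          (∀ x ∈ M, u * x * star u ∈ N) → ε₀ ≤ ‖u - 1‖ := by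
  refine ⟨1 / 10 ^ 5, by norm_num, fun δ hδ => ?_⟩
  obtain ⟨k, hk⟩ := exists_nat_ge ((6 * 10 ^ 4 : ℝ) ^ 2)
  have hk' : 6 / √(Fintype.card (Fin (k + 1))) ≤ 1 / 10 ^ 4 := by
    have : (6 * 10 ^ 4 : ℝ) ≤ √(Fintype.card (Fin (k + 1))) :=
      Real.le_sqrt_of_sq_le (by rw [Fintype.card_fin]; push_cast; linarith)
    rw [div_le_iff₀ (by linarith)]
    linarith
  obtain ⟨c, r, hc, hr, hcr, h0, h1⟩ : ∃ c r : ℝ, 0 ≤ c ∧ 0 ≤ r ∧ c ^ 2 + r ^ 2 = 1 ∧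
      0 < (1 - r) * c ∧ 2 * c + 2 * (1 - r) ≤ 1 / 10 ^ 5 :=
    ⟨2000000 / 1000000000001, 999999999999 / 1000000000001, by norm_num, by norm_num, by norm_num,
      by norm_num, by norm_num⟩
  have hC : 0 < 4 / ((1 - r) * c) := by positivity
  obtain ⟨η, hη, e1, e2, e3⟩ : ∃ η : ℝ, 0 < η ∧ η ≤ 1 / 2 ∧
      4 / ((1 - r) * c) * (4 / ((1 - r) * c) * η) ≤ 1 / 10 ^ 5 ∧
      4 * (4 / ((1 - r) * c) * η) < δ := by
    generalize 4 / ((1 - r) * c) = C at hC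
    refine ⟨min (1 / 2) (min (1 / 10 ^ 5 / (C * C)) (δ / (8 * C))), by positivity, min_le_left _ _,
      ?_, ?_⟩
    · rw [← mul_assoc, mul_comm, ← le_div_iff₀ (by positivity)]
      exact (min_le_right _ _).trans (min_le_left _ _)
    · have : min (1 / 2) (min (1 / 10 ^ 5 / (C * C)) (δ / (8 * C))) ≤ δ / (8 * C) :=
        (min_le_right _ _).trans (min_le_right _ _)
      rw [le_div_iff₀ (by positivity)] at this
      linarith
  obtain ⟨ι, _, _, m, ω, U, V, S, J, p, v, hω, hω', hF⟩ := exists_fin hη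
  obtain ⟨K, _, _, _, _, Θ, e₁, e₂, l₁, l₂, j, hM⟩ := exists_mdl (Fin (k + 1)) (EuclideanSpace ℂ ι)
  obtain ⟨M, N, hA, hB⟩ := near_main hM hF hω hω' e1 hc hr hcr h0 h1 hk' e2
  exact ⟨_, inferInstance, inferInstance, inferInstance, separable_lp2, M, N,
    fun x hx hx1 => (hA x hx hx1).imp fun y hy => ⟨hy.1, hy.2.trans_lt e3⟩, hB⟩

end Crest.Agent.R78
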