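import Crest.Agent.R78.NearPS

/-! Row 78, part S0104: the near inclusion, and the operators of the obstruction. -/

set_option autoImplicit false
set_option linter.unusedSectionVars false

namespace Crest.Agent.R78

open Crest.Agent.R194 Finset

section Abs
variable {R : Type*} [CStarAlgebra R]

theorem comm_star_unitary {u T : R} (hu : u ∈ unitary R) (h : T * u = u * T) :
    T * star u = star u * T := by
  calc T * star u = star u * (u * T) * star u := by rw [← mul_assoc, hu.1, one_mul]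
    _ = star u * T := by rw [← h, mul_assoc, mul_assoc, hu.2, mul_one]

theorem comm_conj {u T z : R} (hu : u ∈ unitary R) (h : T * u = u * T) (hz : T * z = z * T) :
    T * (u * z * star u) = u * z * star u * T := by
  rw [← mul_assoc, ← mul_assoc, h, mul_assoc u, hz, ← mul_assoc, mul_assoc _ T,
    comm_star_unitary hu h, ← mul_assoc]

theorem conj_comm {W d ρ z : R} (hW : W ∈ unitary R) (h : ρ * W = W * d * ρ) (hd : d * z = z * d)
    (hρ : ρ * z = z * ρ) : ρ * (W * z * star W) = W * z * star W * ρ := by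
  have e : star W * ρ = d * ρ * star W := by
    calc star W * ρ = star W * (ρ * W) * star W := by rw [mul_assoc, mul_assoc, hW.2, mul_one]
      _ = _ := by rw [h, ← mul_assoc, ← mul_assoc, hW.1, one_mul]
  calc ρ * (W * z * star W) = ρ * W * z * star W := by simp only [mul_assoc]
    _ = W * (d * (ρ * z)) * star W := by rw [h]; simp only [mul_assoc]
    _ = W * z * (d * ρ * star W) := by rw [hρ, ← mul_assoc d, hd]; simp only [mul_assoc]
    _ = _ := by rw [← e]; simp only [mul_assoc]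

theorem norm_conj_le {u z : R} (hu : u ∈ unitary R) : ‖u * z * star u‖ ≤ ‖z‖ :=
  (norm_mul_le_left (norm_unitary_le (Unitary.star_mem hu))).trans
    (norm_mul_le_right (norm_unitary_le hu))

theorem norm_conj_sub_le {u z : R} (hu : u ∈ unitary R) (hz : ‖z‖ ≤ 1) :
    ‖u * z * star u - z‖ ≤ 2 * ‖u - 1‖ := by
  have e : u * z * star u - z = (u - 1) * (z * star u) + z * star (u - 1) := by
    rw [star_sub, star_one]
    noncomm_ring
  have h1 := norm_mul_le_left (x := u - 1)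
    ((norm_mul_le_left (norm_unitary_le (Unitary.star_mem hu))).trans hz)
  have h2 := norm_mul_le_right (y := star (u - 1)) hz
  rw [norm_star] at h2
  rw [e]
  linarith [norm_add_le ((u - 1) * (z * star u)) (z * star (u - 1))]

theorem near_abs {W₁ W₂ Wσ x J p : R} {η : ℝ} (h₁ : W₁ ∈ unitary R) (h₂ : W₂ ∈ unitary R)
    (hσ : Wσ ∈ unitary R) (hx : ‖x‖ ≤ 1) (hJ : ‖J‖ ≤ 1) (hp : star J * J = p)
    (a : ‖Wσ * J - J * W₁‖ ≤ η) (b : ‖W₂ * J - J * W₂‖ ≤ η) (hxJ : J * x = x * J)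
    (hpW : p * W₁ = W₁ * p) :
    ‖p * (W₁ * (W₂ * x * star W₂) * star W₁) - star J * (Wσ * (W₂ * x * star W₂) * star Wσ) * J‖ ≤
      4 * η := by
  have hJ' : ‖star J‖ ≤ 1 := by rwa [norm_star]
  have n1 := norm_unitary_le h₁
  have n1' := norm_unitary_le (Unitary.star_mem h₁)
  have a1 := norm_star_comm_le (T := J) h₁ hσ
  have b1 := norm_star_comm_le (T := J) h₂ h₂
  have c : ‖J * (W₂ * x * star W₂) - W₂ * x * star W₂ * J‖ ≤ 2 * η := by
    have e : J * (W₂ * x * star W₂) - W₂ * x * star W₂ * J =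
        -((W₂ * J - J * W₂) * (x * star W₂)) - W₂ * x * (star W₂ * J - J * star W₂) := by
      have : W₂ * J * (x * star W₂) = W₂ * x * (J * star W₂) := by
        rw [mul_assoc, ← mul_assoc J, hxJ]
        simp only [mul_assoc]
      rw [sub_mul, mul_sub, this]
      noncomm_ring
    have h1 := norm_mul_le_left (x := W₂ * J - J * W₂)
      ((norm_mul_le_left (norm_unitary_le (Unitary.star_mem h₂))).trans hx)
    have h2 := norm_mul_le_right (y := star W₂ * J - J * star W₂)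
      ((norm_mul_le_right (norm_unitary_le h₂)).trans hx)
    rw [e]
    refine (norm_sub_le _ _).trans ?_
    rw [norm_neg]
    linarith
  have hy : ‖W₂ * x * star W₂‖ ≤ 1 := (norm_conj_le h₂).trans hx
  generalize W₂ * x * star W₂ = y at c hy
  have e : p * (W₁ * y * star W₁) - star J * (Wσ * y * star Wσ) * J =
      W₁ * star J * (J * y - y * J) * star W₁ - W₁ * star J * y * (star Wσ * J - J * star W₁) -
        star (star Wσ * J - J * star W₁) * (y * star Wσ * J) := by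
    have : p * (W₁ * y * star W₁) = W₁ * (star J * J) * y * star W₁ := by
      rw [hp, ← hpW]
      simp only [mul_assoc]
    rw [this]
    simp only [star_sub, star_mul, star_star]
    noncomm_ring
  have m1 : ‖W₁ * star J‖ ≤ 1 := (norm_mul_le_right n1).trans hJ'
  have t1 := (norm_mul_le_left (x := W₁ * star J * (J * y - y * J)) n1').trans
    (norm_mul_le_right m1)
  have t2 := norm_mul_le_right (y := star Wσ * J - J * star W₁) ((norm_mul_le_left hy).trans m1)
  have t3 := norm_mul_le_left (x := star (star Wσ * J - J * star W₁))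
    ((norm_mul_le_left hJ).trans ((norm_mul_le_left
      (norm_unitary_le (Unitary.star_mem hσ))).trans hy))
  rw [norm_star] at t3
  rw [e]
  refine (norm_sub_le _ _).trans ((add_le_add (norm_sub_le _ _) le_rfl).trans ?_)
  linarith

theorem norm_amp_le {κ : Type} [Fintype κ] [DecidableEq κ] {p : R} {v : κ → R}
    (hp : IsStarProjection p) (vv : ∀ i j, star (v i) * v j = if i = j then p else 0)
    (hs : ∑ i, v i * star (v i) = 1) (d : R) : ‖∑ i, v i * d * star (v i)‖ ≤ ‖d‖ := by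
  let _ := CStarAlgebra.spectralOrder R
  have := CStarAlgebra.spectralOrderedRing R
  have e : star (∑ i, v i * d * star (v i)) * ∑ i, v i * d * star (v i) =
      ∑ i, v i * (star d * p * d) * star (v i) := by
    rw [star_sum, sum_mul_sum]
    refine sum_congr rfl fun i _ => ?_
    have : ∀ j, star (v i * d * star (v i)) * (v j * d * star (v j)) =
        if i = j then v i * (star d * p * d) * star (v j) else 0 := fun j => by
      have : star (v i * d * star (v i)) * (v j * d * star (v j)) =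
          v i * (star d * (star (v i) * v j) * d) * star (v j) := by
        simp only [star_mul, star_star, mul_assoc]
      rw [this, vv]
      split_ifs <;> simp
    simp only [this, sum_ite_eq, mem_univ, if_true]
  have hsa : IsSelfAdjoint (star d * p * d) := hp.isSelfAdjoint.conjugate' d
  have hn : ‖star d * p * d‖ ≤ ‖d‖ * ‖d‖ :=
    (norm_mul_le _ _).trans (mul_le_mul_of_nonneg_right
      ((norm_mul_le_left hp.norm_le).trans (norm_star d).le) (norm_nonneg _))
  have h1 : ∑ i, v i * (star d * p * d) * star (v i) ≤ algebraMap ℝ R ‖star d * p * d‖ := by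
    rw [Algebra.algebraMap_eq_smul_one, ← hs, smul_sum]
    exact sum_le_sum fun i _ => CStarAlgebra.star_right_conjugate_le_norm_smul hsa
  rw [← e, ← CStarAlgebra.norm_le_iff_le_algebraMap _ (norm_nonneg _) (star_mul_self_nonneg _),
    CStarRing.norm_star_mul_self] at h1
  exact (mul_self_le_mul_self_iff (norm_nonneg _) (norm_nonneg _)).2 (h1.trans hn)

end Abs

variable {Γ G V : Type} [Group Γ] [Group G] [NormedAddCommGroup V] [InnerProductSpace ℂ V]
  [CompleteSpace V]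

/-- unitary representations -/
def Rep (a : G →* (V →L[ℂ] V)) : Prop := ∀ g, star (a g) = a g⁻¹

/-- the multiplication operator of a representation -/
noncomputable def Wp (a : G →* (V →L[ℂ] V)) (π : Γ →* G) : LL Γ V →L[ℂ] LL Γ V :=
  Mu fun x => a (π x)

variable {a b σ : G →* (V →L[ℂ] V)}

theorem Rep.un (h : Rep a) (π : Γ →* G) : Un fun x => a (π x) := fun _ => rep_unitary h _

theorem Rep.W_unitary (h : Rep a) (π : Γ →* G) : Wp a π ∈ unitary (LL Γ V →L[ℂ] LL Γ V) :=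
  (h.un π).unitary

theorem Rep.Rt_W (h : Rep a) (π : Γ →* G) (γ : Γ) :
    Rt V γ * Wp a π = Wp a π * Dg Γ V (a (π γ)) * Rt V γ := LL_ext fun ξ x => by
  simp only [LL_mul, Wp, (h.un π).apply, Rt_apply, Dg_apply, map_mul]
  rfl

theorem Rep.W_Lf (h : Rep a) (π : Γ →* G) (γ : Γ) :
    Wp a π * Lf V γ = Lf V γ * Dg Γ V (a (π γ)) * Wp a π := LL_ext fun ξ x => by
  simp only [LL_mul, Wp, (h.un π).apply, Lf_apply, Dg_apply]
  change _ = (a (π γ) * a (π (γ⁻¹ * x))) _
  rw [← map_mul, ← map_mul, mul_inv_cancel_left]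

theorem Rep.Dg_W (h : Rep a) (π : Γ →* G) {T : V →L[ℂ] V} (hT : ∀ g, T * a g = a g * T) :
    Dg Γ V T * Wp a π = Wp a π * Dg Γ V T := Mu_Dg (h.un π) fun _ => hT _

theorem near_incl (ha : Rep a) (hb : Rep b) (hσ : Rep σ) (π₁ π₂ : Γ →* G) {κ : Type} [Fintype κ]
    [DecidableEq κ] {J p : V →L[ℂ] V} {v : κ → V →L[ℂ] V} {η : ℝ} (hη : 0 ≤ η)
    (hp : IsStarProjection p) (vv : ∀ i j, star (v i) * v j = if i = j then p else 0)
    (vp : ∀ i, v i * p = v i) (hs : ∑ i, v i * star (v i) = 1) (JJ : star J * J = p)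
    (σb : ∀ g h, σ g * b h = b h * σ g) (σJ : ∀ g, ‖σ g * J - J * a g‖ ≤ η)
    (bJ : ∀ g, ‖b g * J - J * b g‖ ≤ η) (va : ∀ i g, v i * a g = a g * v i)
    (vb : ∀ i g, v i * b g = b g * v i) (pa : ∀ g, p * a g = a g * p)
    {x : LL Γ V →L[ℂ] LL Γ V} (hx : ‖x‖ ≤ 1) (xρ : ∀ γ, Rt V γ * x = x * Rt V γ)
    (xD : ∀ T, Dg Γ V T * x = x * Dg Γ V T) :
    ∃ y, (∀ γ, Rt V γ * y = y * Rt V γ) ∧
      ‖Wp a π₁ * (Wp b π₂ * x * star (Wp b π₂)) * star (Wp a π₁) - y‖ ≤ 4 * η := by
  have u1 := ha.W_unitary π₁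
  have u2 := hb.W_unitary π₂
  have u3 := hσ.W_unitary π₁
  have h2 : ∀ γ, Rt V γ * (Wp b π₂ * x * star (Wp b π₂)) = Wp b π₂ * x * star (Wp b π₂) * Rt V γ :=
    fun γ => conj_comm u2 (hb.Rt_W π₂ γ) (xD _) (xρ γ)
  have h3 := fun γ => conj_comm u3 (hσ.Rt_W π₁ γ)
    (comm_conj u2 (hb.Dg_W π₂ (σb (π₁ γ))) (xD _)) (h2 γ)
  have key := near_abs u1 u2 u3 hx ((norm_Dg_le J).trans (norm_le_one_of_star_mul JJ hp))
    (p := Dg Γ V p) (by rw [← map_star, ← map_mul, JJ])
    (norm_Mu_Dg (hσ.un π₁) (ha.un π₁) hη fun _ => σJ _)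
    (norm_Mu_Dg (hb.un π₂) (hb.un π₂) hη fun _ => bJ _) (xD J) (ha.Dg_W π₁ pa)
  have hv := fun i => comm_conj u1 (ha.Dg_W π₁ (va i)) (comm_conj u2 (hb.Dg_W π₂ (vb i)) (xD _))
  generalize Wp a π₁ * (Wp b π₂ * x * star (Wp b π₂)) * star (Wp a π₁) = X at key hv ⊢
  generalize Wp σ π₁ * (Wp b π₂ * x * star (Wp b π₂)) * star (Wp σ π₁) = Y at key h3
  have hs' : ∑ i, Dg Γ V (v i) * star (Dg Γ V (v i)) = 1 := by
    simp only [← map_star, ← map_mul, ← map_sum, hs, map_one]
  refine ⟨∑ i, Dg Γ V (v i) * (star (Dg Γ V J) * Y * Dg Γ V J) * star (Dg Γ V (v i)), fun γ => ?_,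
    le_trans (le_of_eq ?_) ((norm_amp_le (hp.map (Dg Γ V)) (fun i j => ?_) hs' _).trans key)⟩
  · have hD : ∀ T, Commute (Rt V γ) (Dg Γ V T) := fun T => (Dg_Rt T γ).symm
    simp only [← map_star]
    exact (Commute.sum_right _ _ _ fun i _ => ((hD _).mul_right
      (((hD _).mul_right (h3 γ)).mul_right (hD _))).mul_right (hD _)).eq
  · congr 1
    simp only [mul_sub, sub_mul, sum_sub_distrib]
    congr 1
    conv_lhs => rw [← mul_one X, ← hs', mul_sum]
    refine sum_congr rfl fun i _ => ?_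
    rw [← mul_assoc, ← hv, ← mul_assoc, ← map_mul, vp]
  · rw [← map_star, ← map_mul, vv, apply_ite (Dg Γ V), map_zero]

theorem conj_Lf_fst (ha : Rep a) (hb : Rep b) (π₁ π₂ : Γ →* G) {γ : Γ} (h : π₂ γ = 1) :
    Wp a π₁ * Wp b π₂ * Lf V γ * star (Wp a π₁ * Wp b π₂) = Lf V γ * Dg Γ V (a (π₁ γ)) := by
  have e : Wp a π₁ * Wp b π₂ * Lf V γ = Lf V γ * Dg Γ V (a (π₁ γ)) * (Wp a π₁ * Wp b π₂) := by
    rw [mul_assoc, hb.W_Lf, h, map_one, map_one, mul_one, ← mul_assoc, ha.W_Lf, mul_assoc]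
  rw [e, mul_assoc, (mul_mem (ha.W_unitary π₁) (hb.W_unitary π₂)).2, mul_one]

theorem conj_Lf_snd (ha : Rep a) (hb : Rep b) (π₁ π₂ : Γ →* G) {γ : Γ} (h : π₁ γ = 1) {η : ℝ}
    (hη : 0 ≤ η) (ab : ∀ g h, ‖a g * b h - b h * a g‖ ≤ η) :
    ‖Wp a π₁ * Wp b π₂ * Lf V γ * star (Wp a π₁ * Wp b π₂) - Lf V γ * Dg Γ V (b (π₂ γ))‖ ≤ η := by
  have u := mul_mem (ha.W_unitary π₁) (hb.W_unitary π₂)
  have e : Wp a π₁ * Wp b π₂ * Lf V γ = Lf V γ * (Wp a π₁ * Dg Γ V (b (π₂ γ))) * Wp b π₂ := by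
    rw [mul_assoc, hb.W_Lf, ← mul_assoc, ← mul_assoc, ha.W_Lf, h, map_one, map_one, mul_one,
      mul_assoc (Lf V γ)]
  have e' : Lf V γ * Dg Γ V (b (π₂ γ)) =
      Lf V γ * (Dg Γ V (b (π₂ γ)) * Wp a π₁) * Wp b π₂ * star (Wp a π₁ * Wp b π₂) := by
    conv_lhs => rw [← mul_one (Lf V γ * _), ← u.2]
    simp only [mul_assoc]
  rw [e, e', ← sub_mul, ← sub_mul, ← mul_sub]
  exact (norm_mul_le_left (norm_unitary_le (Unitary.star_mem u))).trans
    ((norm_mul_le_left (norm_unitary_le (hb.W_unitary π₂))).trans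
      ((norm_mul_le_right (norm_unitary_le (rep_unitary star_Lf _))).trans
        (norm_Mu_Dg (ha.un π₁) (ha.un π₁) hη fun _ => ab _ _)))

end Crest.Agent.R78
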