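import Crest.Agent.R78.NearFin
import Crest.Agent.R194.NotSim

/-! Row 78, part S0104: operators on `ℓ²(Γ; V)`. -/

set_option autoImplicit false
set_option linter.unusedSectionVars false

namespace Crest.Agent.R78

open Crest.Agent.R194 Finset

local notation "adj" => ContinuousLinearMap.adjoint

/-- `ℓ²(Γ; V)` -/
abbrev LL (Γ V : Type) [NormedAddCommGroup V] : Type := lp (fun _ : Γ => V) 2

variable {Γ V : Type} [NormedAddCommGroup V] [InnerProductSpace ℂ V] [CompleteSpace V]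

theorem LL_ext {S T : LL Γ V →L[ℂ] LL Γ V} (h : ∀ ξ x, S ξ x = T ξ x) : S = T := lp2_ext h

theorem LL_mul (S T : LL Γ V →L[ℂ] LL Γ V) (ξ : LL Γ V) : (S * T) ξ = S (T ξ) := rfl

theorem LL_sub (S T : LL Γ V →L[ℂ] LL Γ V) (ξ : LL Γ V) (x : Γ) : (S - T) ξ x = S ξ x - T ξ x := rfl

theorem LL_one (ξ : LL Γ V) : (1 : LL Γ V →L[ℂ] LL Γ V) ξ = ξ := rfl

theorem LL_zero (ξ : LL Γ V) (x : Γ) : (0 : LL Γ V →L[ℂ] LL Γ V) ξ x = 0 := rfl

/-- multiplication by an operator field -/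
noncomputable def Mu (φ : Γ → V →L[ℂ] V) : LL Γ V →L[ℂ] LL Γ V := diagL φ

/-- unitary fields -/
def Un (φ : Γ → V →L[ℂ] V) : Prop := ∀ x, φ x ∈ unitary (V →L[ℂ] V)

theorem Un.bdd {φ : Γ → V →L[ℂ] V} (h : Un φ) : BddL (A := fun _ => V) (B := fun _ => V) φ :=
  ⟨1, fun x => norm_unitary_le (h x)⟩

theorem Un.star {φ : Γ → V →L[ℂ] V} (h : Un φ) : Un fun x => star (φ x) :=
  fun x => Unitary.star_mem (h x)

theorem Un.apply {φ : Γ → V →L[ℂ] V} (h : Un φ) (ξ : LL Γ V) (x : Γ) : Mu φ ξ x = φ x (ξ x) :=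
  diagL_apply h.bdd ξ x

theorem Un.star_Mu {φ : Γ → V →L[ℂ] V} (h : Un φ) : Star.star (Mu φ) = Mu fun x => Star.star (φ x) :=
  adjoint_diagL h.bdd

theorem Un.unitary {φ : Γ → V →L[ℂ] V} (h : Un φ) : Mu φ ∈ unitary (LL Γ V →L[ℂ] LL Γ V) := by
  rw [Unitary.mem_iff, h.star_Mu]
  refine ⟨LL_ext fun ξ x => ?_, LL_ext fun ξ x => ?_⟩
  · rw [LL_mul, h.star.apply, h.apply]
    exact congrArg (· (ξ x)) (h x).1
  · rw [LL_mul, h.apply, h.star.apply]
    exact congrArg (· (ξ x)) (h x).2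

theorem norm_le_of_apply {S : LL Γ V →L[ℂ] LL Γ V} {φ : Γ → V →L[ℂ] V} {c : ℝ} (hc : 0 ≤ c)
    (hφ : ∀ x, ‖φ x‖ ≤ c) (h : ∀ ξ x, S ξ x = φ x (ξ x)) : ‖S‖ ≤ c := by
  have : S = diagL φ := LL_ext fun ξ x => by rw [h, diagL_apply ⟨c, hφ⟩]
  rw [this]
  exact norm_diagL_le hc hφ

theorem bdd_const (T : V →L[ℂ] V) : BddL (A := fun _ : Γ => V) (B := fun _ => V) fun _ => T :=
  ⟨‖T‖, fun _ => le_rfl⟩

variable (Γ V) in
/-- constant diagonal operators -/
noncomputable def Dg : (V →L[ℂ] V) →⋆ₐ[ℂ] (LL Γ V →L[ℂ] LL Γ V) where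
  toFun T := diagL fun _ => T
  map_one' := diagL_id
  map_mul' S T := (diagL_comp (bdd_const S) (bdd_const T)).symm
  map_zero' := LL_ext fun ξ x => diagL_apply (bdd_const _) ξ x
  map_add' S T := LL_ext fun ξ x => by
    change _ = diagL (fun _ => S) ξ x + diagL (fun _ => T) ξ x
    simp only [diagL_apply (bdd_const _)]
    rfl
  commutes' c := LL_ext fun ξ x => by
    rw [diagL_apply (bdd_const _)]
    rfl
  map_star' T := (adjoint_diagL (bdd_const T)).symm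

theorem Dg_apply (T : V →L[ℂ] V) (ξ : LL Γ V) (x : Γ) : Dg Γ V T ξ x = T (ξ x) :=
  diagL_apply (bdd_const T) ξ x

theorem norm_Dg_le (T : V →L[ℂ] V) : ‖Dg Γ V T‖ ≤ ‖T‖ := NonUnitalStarAlgHom.norm_apply_le (Dg Γ V) T

theorem norm_Mu_Dg {φ ψ : Γ → V →L[ℂ] V} (hφ : Un φ) (hψ : Un ψ) {T : V →L[ℂ] V} {c : ℝ}
    (hc : 0 ≤ c) (h : ∀ x, ‖φ x * T - T * ψ x‖ ≤ c) : ‖Mu φ * Dg Γ V T - Dg Γ V T * Mu ψ‖ ≤ c :=
  norm_le_of_apply hc h fun ξ x => by
    rw [LL_sub, LL_mul, LL_mul, hφ.apply, Dg_apply, Dg_apply, hψ.apply]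
    rfl

theorem Mu_Dg {φ : Γ → V →L[ℂ] V} (hφ : Un φ) {T : V →L[ℂ] V} (h : ∀ x, T * φ x = φ x * T) :
    Dg Γ V T * Mu φ = Mu φ * Dg Γ V T := LL_ext fun ξ x => by
  rw [LL_mul, LL_mul, hφ.apply, Dg_apply, Dg_apply, hφ.apply]
  exact congrArg (· (ξ x)) (h x)

open Classical in
variable (V) in
/-- multiplication by an indicator function -/
noncomputable def Ind (p : Γ → Prop) : LL Γ V →L[ℂ] LL Γ V := diagL fun x => if p x then 1 else 0

open Classical in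
theorem bdd_ind (p : Γ → Prop) :
    BddL (A := fun _ : Γ => V) (B := fun _ => V) fun x => if p x then 1 else 0 :=
  ⟨1, fun x => by
    dsimp only
    split_ifs
    · exact ContinuousLinearMap.norm_id_le
    · simp⟩

theorem Ind_pos {p : Γ → Prop} (ξ : LL Γ V) {x : Γ} (h : p x) : Ind V p ξ x = ξ x := by
  rw [Ind, diagL_apply (bdd_ind p), if_pos h]
  rfl

theorem Ind_neg {p : Γ → Prop} (ξ : LL Γ V) {x : Γ} (h : ¬ p x) : Ind V p ξ x = 0 := by
  rw [Ind, diagL_apply (bdd_ind p), if_neg h]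
  rfl

open Classical in
theorem Ind_apply (p : Γ → Prop) (ξ : LL Γ V) (x : Γ) : Ind V p ξ x = if p x then ξ x else 0 := by
  split_ifs with h
  exacts [Ind_pos ξ h, Ind_neg ξ h]

theorem Ind_proj (p : Γ → Prop) : IsStarProjection (Ind V p) := by
  refine ⟨LL_ext fun ξ x => ?_, ?_⟩
  · by_cases h : p x <;> simp only [LL_mul, Ind_pos, Ind_neg, h, not_false_eq_true]
  · refine (adjoint_diagL (bdd_ind p)).trans (congrArg diagL (funext fun x => ?_))
    split_ifs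
    · exact ContinuousLinearMap.adjoint_id
    · exact map_zero _

theorem Ind_mul_Ind (p q : Γ → Prop) : Ind V p * Ind V q = Ind V fun x => p x ∧ q x :=
  LL_ext fun ξ x => by
    by_cases h : p x <;> by_cases h' : q x <;>
      simp only [LL_mul, Ind_pos, Ind_neg, h, h', not_false_eq_true, and_self, and_false, and_true]

theorem Ind_orth {p q : Γ → Prop} (h : ∀ x, p x → ¬ q x) : Ind V p * Ind V q = 0 :=
  LL_ext fun ξ x => by
    rw [Ind_mul_Ind, Ind_neg _ fun hx => h x hx.1 hx.2, LL_zero]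

theorem Dg_Ind (T : V →L[ℂ] V) (p : Γ → Prop) : Dg Γ V T * Ind V p = Ind V p * Dg Γ V T :=
  LL_ext fun ξ x => by
    by_cases h : p x <;> simp only [LL_mul, Ind_pos, Ind_neg, h, not_false_eq_true, Dg_apply, map_zero]

theorem hd_orth {α : Type} [DecidableEq α] (π : Γ → FreeGroup α) (b : Bool) :
    Pairwise fun s t : α => Ind V (fun x => hd (π x) = some (s, b)) *
      Ind V (fun x => hd (π x) = some (t, b)) = 0 := fun s t hst =>
  Ind_orth fun x h h' => hst (by simpa [h] using h')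

section
variable [Group Γ]

variable (V) in
/-- left shifts -/
noncomputable def Lf : Γ →* (LL Γ V →L[ℂ] LL Γ V) where
  toFun γ := shift (Equiv.mulLeft γ⁻¹)
  map_one' := LL_ext fun ξ x => by simp
  map_mul' γ γ' := LL_ext fun ξ x => by simp [← mul_assoc]

variable (V) in
/-- right shifts -/
noncomputable def Rt : Γ →* (LL Γ V →L[ℂ] LL Γ V) where
  toFun γ := shift (Equiv.mulRight γ)
  map_one' := LL_ext fun ξ x => by simp
  map_mul' γ γ' := LL_ext fun ξ x => by simp [mul_assoc]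

theorem Lf_apply (γ : Γ) (ξ : LL Γ V) (x : Γ) : Lf V γ ξ x = ξ (γ⁻¹ * x) := rfl

theorem Rt_apply (γ : Γ) (ξ : LL Γ V) (x : Γ) : Rt V γ ξ x = ξ (x * γ) := rfl

theorem star_Lf (γ : Γ) : star (Lf V γ) = Lf V γ⁻¹ :=
  (adjoint_shift _).trans (by rw [Equiv.mulLeft_symm]; rfl)

theorem star_Rt (γ : Γ) : star (Rt V γ) = Rt V γ⁻¹ :=
  (adjoint_shift _).trans (by rw [Equiv.mulRight_symm]; rfl)

theorem rep_unitary {A : Type*} [CStarAlgebra A] {π : Γ →* A} (h : ∀ g, star (π g) = π g⁻¹)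
    (g : Γ) : π g ∈ unitary A := by
  rw [Unitary.mem_iff, h, ← map_mul, ← map_mul, inv_mul_cancel, mul_inv_cancel, map_one]
  exact ⟨rfl, rfl⟩

theorem Lf_Rt (γ γ' : Γ) : Lf V γ * Rt V γ' = Rt V γ' * Lf V γ :=
  LL_ext fun ξ x => by simp only [LL_mul, Lf_apply, Rt_apply, mul_assoc]

theorem Dg_Lf (T : V →L[ℂ] V) (γ : Γ) : Dg Γ V T * Lf V γ = Lf V γ * Dg Γ V T :=
  LL_ext fun ξ x => by simp only [LL_mul, Lf_apply, Dg_apply]

theorem Dg_Rt (T : V →L[ℂ] V) (γ : Γ) : Dg Γ V T * Rt V γ = Rt V γ * Dg Γ V T :=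
  LL_ext fun ξ x => by simp only [LL_mul, Rt_apply, Dg_apply]

open Classical in
variable (Γ V) in
/-- the isometry onto the fibre over `1` -/
noncomputable def sg1 : V →L[ℂ] LL Γ V := lp.singleContinuousLinearMap ℂ (fun _ : Γ => V) 2 1

theorem sg1_one (v : V) : sg1 Γ V v 1 = v := by
  classical
  exact lp.single_apply_self (E := fun _ : Γ => V) 2 1 v

theorem sg1_ne (v : V) {x : Γ} (h : x ≠ 1) : sg1 Γ V v x = 0 := by
  classical
  exact lp.single_apply_ne (E := fun _ : Γ => V) 2 1 v h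

theorem adj_sg1 (ξ : LL Γ V) : adj (sg1 Γ V) ξ = ξ 1 := by
  classical
  refine ext_inner_left ℂ fun v => ?_
  rw [ContinuousLinearMap.adjoint_inner_right]
  exact lp.inner_single_left (G := fun _ : Γ => V) 1 v ξ

theorem adj_sg1_comp : adj (sg1 Γ V) ∘L sg1 Γ V = 1 :=
  ContinuousLinearMap.ext fun v => by rw [ContinuousLinearMap.comp_apply, adj_sg1, sg1_one]; rfl

theorem Dg_sg1 (T : V →L[ℂ] V) : Dg Γ V T ∘L sg1 Γ V = sg1 Γ V ∘L T :=
  ContinuousLinearMap.ext fun v => lp.ext (funext fun x => by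
    rw [ContinuousLinearMap.comp_apply, ContinuousLinearMap.comp_apply, Dg_apply]
    by_cases h : x = 1
    · rw [h, sg1_one, sg1_one]
    · rw [sg1_ne _ h, sg1_ne _ h, map_zero])

theorem Ind_Dg_eq {p : Γ → Prop} (hp : ∀ x, p x ↔ x = 1) (T : V →L[ℂ] V) :
    Ind V p * Dg Γ V T = sg1 Γ V ∘L T ∘L adj (sg1 Γ V) := LL_ext fun ξ x => by
  rw [LL_mul, ContinuousLinearMap.comp_apply, ContinuousLinearMap.comp_apply, adj_sg1]
  by_cases h : x = 1
  · rw [Ind_pos _ ((hp x).2 h), h, sg1_one, Dg_apply]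
  · rw [Ind_neg _ fun h' => h ((hp x).1 h'), sg1_ne _ h]

end

/-- An isometry of `F` onto the range of the projection `e`, intertwining `Θ` with the identity. -/
structure Iso {F K : Type} [NormedAddCommGroup F] [InnerProductSpace ℂ F] [CompleteSpace F]
    [NormedAddCommGroup K] [InnerProductSpace ℂ K] [CompleteSpace K]
    (Θ : (F →L[ℂ] F) → K →L[ℂ] K) (e : K →L[ℂ] K) (j : F →L[ℂ] K) : Prop where
  iso : adj j ∘L j = 1
  ran : j ∘L adj j = e
  int : ∀ T, Θ T ∘L j = j ∘L T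

theorem Iso.step [Group Γ] {F : Type} [NormedAddCommGroup F] [InnerProductSpace ℂ F]
    [CompleteSpace F] {Θ : (F →L[ℂ] F) → V →L[ℂ] V} {e : V →L[ℂ] V} {j : F →L[ℂ] V}
    (h : Iso Θ e j) {p : Γ → Prop} (hp : ∀ x, p x ↔ x = 1) :
    Iso (fun T => Dg Γ V (Θ T)) (Ind V p * Dg Γ V e) (sg1 Γ V ∘L j) where
  iso := by
    rw [ContinuousLinearMap.adjoint_comp, ContinuousLinearMap.comp_assoc,
      ← ContinuousLinearMap.comp_assoc (adj (sg1 Γ V)), adj_sg1_comp]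
    exact h.iso
  ran := by
    rw [Ind_Dg_eq hp, ← h.ran, ContinuousLinearMap.adjoint_comp]
    rfl
  int T := by
    rw [← ContinuousLinearMap.comp_assoc, Dg_sg1, ContinuousLinearMap.comp_assoc, h.int]
    rfl

theorem Iso.refl : Iso (fun T : V →L[ℂ] V => T) 1 (ContinuousLinearMap.id ℂ V) :=
  ⟨by rw [ContinuousLinearMap.adjoint_id]; rfl, by rw [ContinuousLinearMap.adjoint_id]; rfl,
    fun _ => rfl⟩

end Crest.Agent.R78
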