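import Crest.Agent.R78.NearA

/-! Row 78, part S0104: two commuting copies of the Pytlik–Szwarc data. -/

set_option autoImplicit false
set_option linter.unusedSectionVars false
set_option maxHeartbeats 400000

namespace Crest.Agent.R78

open Crest.Agent.R194 Finset
open FreeGroup (of)

theorem ps_lip_same {A : Type*} [CStarAlgebra A] {α : Type} [DecidableEq α]
    {e : FreeGroup α → FreeGroup α → A} {l : FreeGroup α →* A} (h : PSD e l) {c r : ℝ} {Z Z' : A}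
    {π π' : FreeGroup α →* A} (hπ : IsPS e l c r Z π) (hπ' : IsPS e l c r Z' π') {T : A}
    (hT : Cm e l T) (hc : 0 < (1 - r) * c) {η : ℝ} (hη : ‖Z' * T - T * Z‖ ≤ η) (g : FreeGroup α) :
    ‖π' g * T - T * π g‖ ≤ 4 / ((1 - r) * c) * η := by
  have := ps_lip h hπ hπ' hT g
  simp only [sub_self, abs_zero, add_zero, zero_mul] at this
  rw [div_mul_eq_mul_div, le_div_iff₀ hc]
  linarith

section
variable {α F K : Type} [DecidableEq α] [Fintype α] [NormedAddCommGroup F] [InnerProductSpace ℂ F]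
  [CompleteSpace F] [NormedAddCommGroup K] [InnerProductSpace ℂ K] [CompleteSpace K]

/-- Two commuting copies of the Pytlik–Szwarc data over `F`. -/
structure Mdl (Θ : (F →L[ℂ] F) →⋆ₐ[ℂ] (K →L[ℂ] K)) (e₁ e₂ : FreeGroup α → FreeGroup α → K →L[ℂ] K)
    (l₁ l₂ : FreeGroup α →* (K →L[ℂ] K)) (j : F →L[ℂ] K) : Prop where
  h1 : PSX e₁ l₁
  h2 : PSX e₂ l₂
  c1 : ∀ T, Cm e₁ l₁ (Θ T)
  c2 : ∀ T, Cm e₂ l₂ (Θ T)
  ce : ∀ x y, Cm e₂ l₂ (e₁ x y)
  cl : ∀ g, Cm e₂ l₂ (l₁ g)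
  iso : Iso Θ (e₁ 1 1 * e₂ 1 1) j

theorem mdl_step {Θ : (F →L[ℂ] F) →⋆ₐ[ℂ] (K →L[ℂ] K)} {e : FreeGroup α → FreeGroup α → K →L[ℂ] K}
    {l : FreeGroup α →* (K →L[ℂ] K)} {j : F →L[ℂ] K} (h : PSX e l) (hc : ∀ T, Cm e l (Θ T))
    (hj : Iso Θ (e 1 1) j) :
    Mdl ((Dg (FreeGroup α) K).comp Θ) (ee K) (fun x y => Dg (FreeGroup α) K (e x y)) (Lf K)
      ((Dg (FreeGroup α) K : (K →L[ℂ] K) →* _).comp l) (sg1 (FreeGroup α) K ∘L j) where
  h1 := psx_model
  h2 := h.map (Dg (FreeGroup α) K)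
  c1 T := cm_model (Θ T)
  c2 T := (hc T).map (Dg (FreeGroup α) K)
  ce x y := ⟨fun z w => ((cm_model (e z w)).1 x y).symm, fun g => ((cm_model (l g)).1 x y).symm⟩
  cl g := ⟨fun z w => ((cm_model (e z w)).2 g).symm, fun h => ((cm_model (l h)).2 g).symm⟩
  iso := by
    rw [ee_one]
    exact hj.step fun _ => Iff.rfl

variable (α F) in
theorem exists_mdl [TopologicalSpace.SeparableSpace F] :
    ∃ (K : Type) (_ : NormedAddCommGroup K) (_ : InnerProductSpace ℂ K) (_ : CompleteSpace K)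
      (_ : TopologicalSpace.SeparableSpace K) (Θ : (F →L[ℂ] F) →⋆ₐ[ℂ] (K →L[ℂ] K))
      (e₁ e₂ : FreeGroup α → FreeGroup α → K →L[ℂ] K) (l₁ l₂ : FreeGroup α →* (K →L[ℂ] K))
      (j : F →L[ℂ] K), Mdl Θ e₁ e₂ l₁ l₂ j := by
  have : TopologicalSpace.SeparableSpace (LL (FreeGroup α) F) := separable_lp2
  have hi := (Iso.refl (V := F)).step (Γ := FreeGroup α) (p := fun t => t = 1) fun _ => Iff.rfl
  rw [map_one, mul_one, ← ee_one] at hi
  exact ⟨LL (FreeGroup α) (LL (FreeGroup α) F), inferInstance, inferInstance, inferInstance,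
    separable_lp2, _, _, _, _, _, _,
    mdl_step (Θ := Dg (FreeGroup α) F) psx_model cm_model hi⟩

end

end Crest.Agent.R78
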