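import Crest.Agent.R78.NearL2
import Crest.Agent.R78.Wind

/-! Row 78, part S0104: the model of the Pytlik–Szwarc data and the ping-pong estimates. -/

set_option autoImplicit false
set_option linter.unusedSectionVars false

namespace Crest.Agent.R78

open Crest.Agent.R194 Finset
open FreeGroup (of of_injective)

local notation "adj" => ContinuousLinearMap.adjoint

section Abs
variable {A : Type*} [CStarAlgebra A] {α : Type} [DecidableEq α] [Fintype α]

/-- Data as in the regular representation. -/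
structure PSX (e : FreeGroup α → FreeGroup α → A) (l : FreeGroup α →* A) : Prop
    extends PSD e l where
  right : ∀ x y g, e x y * l g = e x (g⁻¹ * y)
  sum : ‖∑ s, l (of s)‖ ≤ 2 * √(Fintype.card α)

variable {e : FreeGroup α → FreeGroup α → A} {l : FreeGroup α →* A}

theorem PSX.map {B : Type*} [CStarAlgebra B] (h : PSX e l) (Φ : A →⋆ₐ[ℂ] B) :
    PSX (fun x y => Φ (e x y)) ((Φ : A →* B).comp l) where
  mul x y z w := by rw [← map_mul, h.mul, apply_ite Φ, map_zero]
  star_e x y := by rw [← map_star, h.star_e]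
  star_l g := (map_star Φ (l g)).symm.trans (congrArg Φ (h.star_l g))
  cov g x y := (map_mul Φ (l g) _).symm.trans ((congrArg Φ (h.cov g x y)).trans (map_mul Φ _ _))
  right x y g := (map_mul Φ _ (l g)).symm.trans (congrArg Φ (h.right x y g))
  sum := by
    refine le_trans (le_of_eq ?_) ((NonUnitalStarAlgHom.norm_apply_le Φ _).trans h.sum)
    rw [map_sum]
    rfl

theorem Cm.map {B : Type*} [CStarAlgebra B] {T : A} (h : Cm e l T) (Φ : A →⋆ₐ[ℂ] B) :
    Cm (fun x y => Φ (e x y)) ((Φ : A →* B).comp l) (Φ T) :=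
  ⟨fun x y => (map_mul Φ T _).symm.trans ((congrArg Φ (h.1 x y)).trans (map_mul Φ _ _)),
    fun g => (map_mul Φ T (l g)).symm.trans ((congrArg Φ (h.2 g)).trans (map_mul Φ _ _))⟩

theorem norm_sum_ps (h : PSX e l) {U : A} {π : FreeGroup α →* A} (hπ : IsPS e l 0 1 U π) :
    ‖∑ s, π (of s) - (Fintype.card α : ℂ) • (e 1 1 * U)‖ ≤ 4 * √(Fintype.card α) := by
  have key : ∀ s, π (of s) - e 1 1 * U = l (of s) * (1 - e 1 1) -
      (e 1 (of s)⁻¹ + e (of s) (of s)⁻¹ * star U) * e (of s)⁻¹ (of s)⁻¹ := fun s => by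
    have e1 : l (of s) * e 1 1 = e (of s) 1 := by simp [h.cov, h.right]
    have e2 : e 1 (of s) * U * l (of s) = e 1 1 * U := by
      rw [mul_assoc, hπ.cm.2, ← mul_assoc, h.right, inv_mul_cancel]
    have e3 : e (of s) 1 * star U * l (of s) = e (of s) (of s)⁻¹ * star U := by
      rw [mul_assoc, (hπ.cm.star' h.toPSD).2, ← mul_assoc, h.right, mul_one]
    have e4 : e (of s) (of s)⁻¹ * star U * e (of s)⁻¹ (of s)⁻¹ = e (of s) (of s)⁻¹ * star U := by
      rw [mul_assoc, (hπ.cm.star' h.toPSD).1, ← mul_assoc, h.mul, if_pos rfl]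
    rw [hπ.gen, rot]
    simp only [Complex.ofReal_zero, Complex.ofReal_one, zero_sub, neg_smul, one_smul, add_mul,
      sub_mul, mul_sub, neg_mul, one_mul, mul_one, e1, e2, e3, e4, h.right, h.mul, if_true,
      inv_mul_cancel]
    abel
  have e0 : ∑ s, π (of s) - (Fintype.card α : ℂ) • (e 1 1 * U) = (∑ s, l (of s)) * (1 - e 1 1) -
      ∑ s, (e 1 (of s)⁻¹ + e (of s) (of s)⁻¹ * star U) * e (of s)⁻¹ (of s)⁻¹ := by
    rw [sum_mul, ← sum_sub_distrib, ← sum_congr rfl fun s _ => key s, sum_sub_distrib, sum_const,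
      card_univ, Nat.cast_smul_eq_nsmul]
  have b1 := (norm_mul_le_left (x := ∑ s, l (of s)) (h.proj 1).one_sub.norm_le).trans h.sum
  have b2 := norm_sum_mul_proj_le (fun s => e 1 (of s)⁻¹ + e (of s) (of s)⁻¹ * star U)
    (fun s => e (of s)⁻¹ (of s)⁻¹) (β := 2)
    (fun s => (norm_add_le _ _).trans (by
      linarith [h.norm_le 1 (of s)⁻¹, (norm_mul_le_left (x := e (of s) (of s)⁻¹)
        (norm_unitary_le (Unitary.star_mem hπ.unit))).trans (h.norm_le _ _)]))
    (fun s => h.proj _) fun s t hst => h.mul_ne (fun h' => hst (of_injective (inv_injective h'))) _ _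
  rw [e0]
  linarith [norm_sub_le ((∑ s, l (of s)) * (1 - e 1 1))
    (∑ s, (e 1 (of s)⁻¹ + e (of s) (of s)⁻¹ * star U) * e (of s)⁻¹ (of s)⁻¹)]

theorem norm_gen_sub (h : PSD e l) {U : A} {c r : ℝ} {π π₁ : FreeGroup α →* A}
    (hπ : IsPS e l c r U π) (hπ₁ : IsPS e l 0 1 U π₁) (s : α) :
    ‖π (of s) - π₁ (of s)‖ ≤ 2 * c + 2 * (1 - r) := by
  have hr : r ≤ 1 := by nlinarith [hπ.sq, hπ.r0, sq_nonneg c]
  have e1 : rot e c r U 1 (of s) - rot e 0 1 U 1 (of s) = (c : ℂ) • (e 1 1 + e (of s) (of s)) +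
      ((1 - r : ℝ) : ℂ) • (e (of s) 1 * star U - e 1 (of s) * U) := by
    simp only [rot, Complex.ofReal_zero, Complex.ofReal_one, Complex.ofReal_sub]
    module
  rw [hπ.gen, hπ₁.gen, ← sub_mul, e1]
  refine (norm_mul_le_left (norm_unitary_le (rep_unitary h.star_l _))).trans
    ((norm_add_le _ _).trans ?_)
  rw [norm_smul, norm_smul, Complex.norm_real, Complex.norm_real, Real.norm_of_nonneg hπ.c0,
    Real.norm_of_nonneg (sub_nonneg.2 hr), mul_comm 2, mul_comm 2]
  refine add_le_add (mul_le_mul_of_nonneg_left ((norm_add_le _ _).trans ?_) hπ.c0)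
    (mul_le_mul_of_nonneg_left ((norm_sub_le _ _).trans ?_) (sub_nonneg.2 hr))
  · linarith [h.norm_le 1 1, h.norm_le (of s) (of s)]
  · linarith [(norm_mul_le_left (x := e (of s) 1)
      (norm_unitary_le (Unitary.star_mem hπ.unit))).trans (h.norm_le _ _),
      (norm_mul_le_left (x := e 1 (of s)) (norm_unitary_le hπ.unit)).trans (h.norm_le _ _)]

end Abs

variable {α V : Type} [DecidableEq α] [Fintype α] [NormedAddCommGroup V] [InnerProductSpace ℂ V]
  [CompleteSpace V]

variable (V) in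
/-- the matrix units of `ℓ²(G; V)` -/
noncomputable def ee (x y : FreeGroup α) : LL (FreeGroup α) V →L[ℂ] LL (FreeGroup α) V :=
  Ind V (fun t => t = x) * Lf V (x * y⁻¹)

theorem ee_apply (x y : FreeGroup α) (ξ : LL (FreeGroup α) V) (t : FreeGroup α) :
    ee V x y ξ t = if t = x then ξ y else 0 := by
  rw [ee, LL_mul, Ind_apply]
  split_ifs with h
  · rw [Lf_apply, h]
    simp
  · rfl

theorem psx_model : PSX (ee V (α := α)) (Lf V) where
  mul x y z w := LL_ext fun ξ t => by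
    by_cases h : y = z <;> simp [ee_apply, h]
  star_e x y := LL_ext fun ξ t => by
    rw [ee_apply, ee, star_mul, star_Lf, (Ind_proj (V := V) _).isSelfAdjoint.star_eq, LL_mul,
      Lf_apply, Ind_apply]
    by_cases h : t = y
    · simp [h]
    · rw [if_neg h, if_neg]
      intro h'
      exact h (by simpa [mul_assoc, inv_mul_eq_one, eq_comm] using h')
  star_l := star_Lf
  cov g x y := LL_ext fun ξ t => by
    simp [ee_apply, Lf_apply, inv_mul_eq_iff_eq_mul]
  right x y g := LL_ext fun ξ t => by simp [ee_apply, Lf_apply]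
  sum := norm_sum_pingpong _ (fun s => Ind V fun x => hd x = some (s, false))
    (fun s => Ind V fun x => hd x = some (s, true))
    (fun s => norm_unitary_le (rep_unitary star_Lf _)) (fun s => Ind_proj _) (hd_orth id false)
    (fun s => Ind_proj _) (hd_orth id true) fun s => LL_ext fun ξ x => by
      rw [LL_mul, Ind_apply]
      by_cases h : hd x = some (s, true)
      · rw [if_pos h]
      · rw [if_neg h, LL_mul, Lf_apply, LL_sub, LL_one, Ind_apply, if_pos, sub_self]
        by_contra h'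
        exact h (by simpa using hd_mul h')

theorem cm_model (T : V →L[ℂ] V) : Cm (ee V (α := α)) (Lf V) (Dg _ V T) :=
  ⟨fun x y => by rw [ee, ← mul_assoc, Dg_Ind, mul_assoc, Dg_Lf, mul_assoc], Dg_Lf T⟩

theorem ee_one : ee V (1 : FreeGroup α) 1 = Ind V fun t => t = 1 := by simp [ee]

variable {Γ : Type} [Group Γ] {ι : FreeGroup α →* Γ} {π : Γ →* FreeGroup α}

theorem norm_sum_conj (hπ : ∀ g, π (ι g) = g) (hc : ∀ x g, π x = 1 → x * ι g = ι g * x)
    (a : α → V →L[ℂ] V) (ha : ∀ s, ‖a s‖ ≤ 1) :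
    ‖∑ s, Lf V (ι (of s)) * Rt V (ι (of s)) * Dg Γ V (a s) -
      Ind V (fun x => π x = 1) * Dg Γ V (∑ s, a s)‖ ≤ 2 * √(Fintype.card α) := by
  have key : ∀ s, Lf V (ι (of s)) * Rt V (ι (of s)) * Dg Γ V (a s) -
      Ind V (fun x => π x = 1) * Dg Γ V (a s) =
      Lf V (ι (of s)) * Rt V (ι (of s)) * Dg Γ V (a s) * (1 - Ind V fun x => π x = 1) := fun s => by
    rw [mul_sub, mul_one]
    congr 1
    refine LL_ext fun ξ x => ?_
    simp only [LL_mul, Lf_apply, Rt_apply, Dg_apply, Ind_apply]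
    by_cases h : π x = 1
    · have : (ι (of s))⁻¹ * x * ι (of s) = x := by rw [mul_assoc, hc x _ h, inv_mul_cancel_left]
      rw [this, if_pos h, if_pos h]
    · rw [if_neg h, if_neg, map_zero]
      intro h'
      exact h (by simpa [hπ, mul_assoc, inv_mul_eq_one] using h')
  rw [map_sum, mul_sum, ← sum_sub_distrib, sum_congr rfl fun s _ => key s]
  refine norm_sum_pingpong _ (fun s => Ind V fun x => hd (π x) = some (s, false))
    (fun s => Ind V fun x => hd (π x) = some (s, true)) (fun s => ?_) (fun s => Ind_proj _)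
    (hd_orth π false) (fun s => Ind_proj _) (hd_orth π true) fun s => LL_ext fun ξ x => ?_
  · exact (norm_mul_le_left (Ind_proj _).one_sub.norm_le).trans ((norm_mul_le_left
      ((norm_Dg_le _).trans (ha s))).trans (norm_unitary_le
        (mul_mem (rep_unitary star_Lf _) (rep_unitary star_Rt _))))
  · rw [LL_mul, Ind_apply]
    by_cases h : hd (π x) = some (s, true)
    · rw [if_pos h]
    · rw [if_neg h]
      simp only [LL_mul, Lf_apply, Rt_apply, Dg_apply, LL_sub, LL_one, Ind_apply]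
      by_cases h1 : π ((ι (of s))⁻¹ * x * ι (of s)) = 1
      · rw [if_pos h1, sub_self, map_zero]
      · rw [if_neg h1, if_pos, sub_self, sub_zero, map_zero]
        by_contra h2
        exact h (by simpa [hπ, mul_assoc] using hd_conj h1 h2)

/-- The averaged generators are close to a partial isometry. -/
theorem norm_avg_sub [Nonempty α] (hπ : ∀ g, π (ι g) = g)
    (hc : ∀ x g, π x = 1 → x * ι g = ι g * x) {e : FreeGroup α → FreeGroup α → V →L[ℂ] V}
    {l β : FreeGroup α →* (V →L[ℂ] V)} (h : PSX e l) {c r ε : ℝ} {Z : V →L[ℂ] V}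
    (hβ : IsPS e l c r Z β) (T : α → LL Γ V →L[ℂ] LL Γ V)
    (hT : ∀ s, ‖T s - Lf V (ι (of s)) * Rt V (ι (of s)) * Dg Γ V (β (of s))‖ ≤ ε) :
    ‖(Fintype.card α : ℂ)⁻¹ • ∑ s, T s - Ind V (fun x => π x = 1) * Dg Γ V (e 1 1) * Dg Γ V Z‖ ≤
      ε + (2 * c + 2 * (1 - r)) + 6 / √(Fintype.card α) := by
  obtain ⟨β₁, h₁⟩ := exists_ps h.toPSD le_rfl zero_le_one (by norm_num) hβ.unit hβ.cm
  have hk : (0 : ℝ) < Fintype.card α := by exact_mod_cast Fintype.card_pos
  have hk' : (Fintype.card α : ℂ) ≠ 0 := by exact_mod_cast Fintype.card_ne_zero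
  have b1 : ‖∑ s, T s - ∑ s, Lf V (ι (of s)) * Rt V (ι (of s)) * Dg Γ V (β₁ (of s))‖ ≤
      Fintype.card α * (ε + (2 * c + 2 * (1 - r))) := by
    rw [← sum_sub_distrib]
    refine (norm_sum_le_of_le _ (n := fun _ => ε + (2 * c + 2 * (1 - r))) fun s _ => ?_).trans
      (by rw [sum_const, card_univ, nsmul_eq_mul])
    refine (norm_sub_le_norm_sub_add_norm_sub _ _ _).trans (add_le_add (hT s) ?_)
    rw [← mul_sub, ← map_sub]
    exact (norm_mul_le_right (norm_unitary_le (mul_mem (rep_unitary star_Lf _)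
      (rep_unitary star_Rt _)))).trans ((norm_Dg_le _).trans (norm_gen_sub h.toPSD hβ h₁ s))
  have b2 := norm_sum_conj hπ hc (fun s => β₁ (of s))
    fun s => norm_unitary_le (rep_unitary h₁.star_pi _)
  have b3 : ‖Ind V (fun x => π x = 1) * Dg Γ V (∑ s, β₁ (of s)) - (Fintype.card α : ℂ) •
      (Ind V (fun x => π x = 1) * Dg Γ V (e 1 1) * Dg Γ V Z)‖ ≤ 4 * √(Fintype.card α) := by
    rw [mul_assoc, ← map_mul, ← mul_smul_comm, ← map_smul, ← mul_sub, ← map_sub]
    exact (norm_mul_le_right (Ind_proj _).norm_le).trans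
      ((norm_Dg_le _).trans (norm_sum_ps h h₁))
  have b4 := (norm_sub_le_norm_sub_add_norm_sub _ _ _).trans (add_le_add
    ((norm_sub_le_norm_sub_add_norm_sub _ _ _).trans (add_le_add b1 b2)) b3)
  rw [← inv_smul_smul₀ hk' (Ind V (fun x => π x = 1) * Dg Γ V (e 1 1) * Dg Γ V Z), ← smul_sub,
    norm_smul, norm_inv, Complex.norm_natCast, inv_mul_le_iff₀ hk]
  refine b4.trans (le_of_eq ?_)
  have := Real.mul_self_sqrt hk.le
  have h0 := Real.sqrt_pos.2 hk
  generalize √(Fintype.card α) = t at this h0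
  rw [← this]
  field_simp
  ring

theorem obstruction {F H : Type} [NormedAddCommGroup F] [InnerProductSpace ℂ F] [CompleteSpace F]
    [FiniteDimensional ℂ F] [Nontrivial F] [NormedAddCommGroup H] [InnerProductSpace ℂ H]
    [CompleteSpace H] {Θ : (F →L[ℂ] F) → H →L[ℂ] H} {p q X Y : H →L[ℂ] H} {j : F →L[ℂ] H}
    (hj : Iso Θ (p * q) j) {U W : F →L[ℂ] F} (hU : U ∈ unitary (F →L[ℂ] F))
    (hW : W ∈ unitary (F →L[ℂ] F)) {ω : ℂ} (hω : ω ≠ 1) (hω' : ‖ω - 1‖ ≤ 1 / 2)
    (hUW : W * U = ω • (U * W)) (hXY : Commute X Y) (hXY' : Commute X (star Y))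
    (hp : IsStarProjection p) (hq : IsStarProjection q) (hpq : Commute p q)
    (hU' : Θ U ∈ unitary (H →L[ℂ] H)) (hW' : Θ W ∈ unitary (H →L[ℂ] H)) (hUp : Commute (Θ U) p)
    (hUq : Commute (Θ U) q) (hWp : Commute (Θ W) p) (hWq : Commute (Θ W) q)
    (hX : ‖X - p * Θ U‖ ≤ 1 / 4000) (hY : ‖Y - q * Θ W‖ ≤ 1 / 4000) : False := by
  obtain ⟨A, B, hAB, a1, -, b1, -, a3, b3⟩ :=
    corner hXY hXY' hp hq hpq hU' hW' hUp hUq hWp hWq hX hY
  have hn : ‖j‖ ≤ 1 := by
    have h1 := ContinuousLinearMap.norm_adjoint_comp_self j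
    rw [hj.iso, norm_one] at h1
    nlinarith [norm_nonneg j]
  have hi : ∀ v, adj j (j v) = v := fun v => congrArg (· v) hj.iso
  have est : ∀ (T : F →L[ℂ] F) (C : H →L[ℂ] H), ‖adj j ∘L C ∘L j - T‖ ≤ ‖C - p * q * Θ T‖ := by
    intro T C
    have : adj j ∘L C ∘L j - T = adj j ∘L (C - p * q * Θ T) ∘L j := by
      ext v
      have h2 : Θ T (j v) = j (T v) := congrArg (· v) (hj.int T)
      simp [← hj.ran, h2, hi]
    rw [this]
    refine ((adj j).opNorm_comp_le _).trans ((mul_le_of_le_one_left (norm_nonneg _)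
      (by simpa using hn)).trans (((C - p * q * Θ T).opNorm_comp_le _).trans
        (mul_le_of_le_one_right (norm_nonneg _) hn)))
  have mul : ∀ C D : H →L[ℂ] H, p * q * D = D →
      (adj j ∘L C ∘L j) * (adj j ∘L D ∘L j) = adj j ∘L (C * D) ∘L j := fun C D h => by
    conv_rhs => rw [← h, ← hj.ran]
    rfl
  exact winding hU hW hω hω' hUW ((est U A).trans a3) ((est W B).trans b3)
    (by rw [mul A B b1, mul B A a1, hAB])

end Crest.Agent.R78
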