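import Crest.Agent.R78.PSFree

/-! Row 78 (S0105): the algebras `C*(u_g ⊗ π g) + C*_r(G) ⊗ 𝒦`. -/

set_option autoImplicit false
set_option linter.unusedSectionVars false
open scoped InnerProductSpace
open Filter Topology InnerProductSpace

namespace Crest.Agent.R78.NS

section Csp
variable {H : Type} [NormedAddCommGroup H] [InnerProductSpace ℂ H] [CompleteSpace H]

/-- closed linear span -/
noncomputable def csp (S : Set (B H)) : Submodule ℂ (B H) := (Submodule.span ℂ S).topologicalClosure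

lemma subset_csp {S : Set (B H)} {x : B H} (h : x ∈ S) : x ∈ csp S :=
  Submodule.le_topologicalClosure _ (Submodule.subset_span h)

lemma isClosed_csp (S : Set (B H)) : IsClosed (csp S : Set (B H)) :=
  Submodule.isClosed_topologicalClosure _

lemma csp_le {S : Set (B H)} {p : Submodule ℂ (B H)} (hp : IsClosed (p : Set (B H)))
    (h : ∀ x ∈ S, x ∈ p) : csp S ≤ p :=
  Submodule.topologicalClosure_minimal _ (Submodule.span_le.2 h) hp

/-- induction principle -/
lemma csp_induction {S : Set (B H)} {P : B H → Prop} (hc : IsClosed {x | P x}) (h0 : P 0)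
    (hadd : ∀ x y, P x → P y → P (x + y)) (hsmul : ∀ (c : ℂ) x, P x → P (c • x))
    (h : ∀ x ∈ S, P x) {x : B H} (hx : x ∈ csp S) : P x :=
  csp_le (p := ⟨⟨⟨{x | P x}, fun {a b} => hadd a b⟩, h0⟩, hsmul⟩) hc h hx

lemma csp_map {S T : Set (B H)} (f : B H →L[ℂ] B H) (h : ∀ x ∈ S, f x ∈ csp T) {x : B H}
    (hx : x ∈ csp S) : f x ∈ csp T :=
  csp_le (p := (csp T).comap f.toLinearMap) ((isClosed_csp T).preimage f.continuous) h hx

lemma csp_mul {S T U : Set (B H)} (h : ∀ s ∈ S, ∀ t ∈ T, s * t ∈ U) {x y : B H} (hx : x ∈ csp S)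
    (hy : y ∈ csp T) : x * y ∈ csp U :=
  csp_map ((ContinuousLinearMap.mul ℂ (B H)).flip y) (fun s hs =>
    csp_map (ContinuousLinearMap.mul ℂ (B H) s) (fun t ht => subset_csp (h s hs t ht)) hy) hx

lemma csp_star {S : Set (B H)} (h : ∀ s ∈ S, star s ∈ S) {x : B H} (hx : x ∈ csp S) :
    star x ∈ csp S :=
  csp_induction (P := fun x => star x ∈ csp S) ((isClosed_csp S).preimage continuous_star)
    (by simp) (fun x y hx hy => by rw [star_add]; exact add_mem hx hy)
    (fun c x hx => by rw [star_smul]; exact Submodule.smul_mem _ _ hx)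
    (fun s hs => subset_csp (h s hs)) hx

lemma csp_comm {S : Set (B H)} {c : B H} (h : ∀ s ∈ S, c * s = s * c) {x : B H} (hx : x ∈ csp S) :
    c * x = x * c :=
  csp_induction (P := fun x => c * x = x * c) (isClosed_eq (by fun_prop) (by fun_prop))
    (by simp) (fun x y hx hy => by rw [mul_add, add_mul, hx, hy])
    (fun a x hx => by rw [mul_smul_comm, smul_mul_assoc, hx]) h hx

lemma csp_sep {S : Set (B H)} (h : TopologicalSpace.IsSeparable S) :
    TopologicalSpace.IsSeparable (csp S : Set (B H)) := h.span.closure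

end Csp

variable {K : Type} [NormedAddCommGroup K] [InnerProductSpace ℂ K] [CompleteSpace K]

/-- `u_g ⊗ π g` -/
noncomputable def gen (π : G →* unitary (B K)) (g : G) : B (L G K) := lam K g * cdg G (π g).1

/-- `u_g ⊗ |k⟩⟨k'|` -/
def cpt (K : Type) [NormedAddCommGroup K] [InnerProductSpace ℂ K] : Set (B (L G K)) :=
  {x | ∃ (g : G) (k k' : K), x = lam K g * cdg G (rankOne ℂ k k')}

/-- `R(G) ⊗ 1` -/
def Comm (K : Type) [NormedAddCommGroup K] [InnerProductSpace ℂ K] : Set (B (L G K)) :=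
  {c | ∀ (g : G) (S : B K), c * (lam K g * cdg G S) = lam K g * cdg G S * c}

/-- infinite multiplicity -/
def Mult (π : G →* unitary (B K)) : Prop :=
  ∃ T : ℕ → B K, (∀ n k, ‖T n k‖ = ‖k‖) ∧ (∀ n g, T n * (π g).1 = (π g).1 * T n) ∧
    ∀ k k', Tendsto (fun n => ⟪k', T n k⟫_ℂ) atTop (𝓝 0)

lemma lc_mul (g h : G) (S T : B K) :
    lam K g * cdg G S * (lam K h * cdg G T) = lam K (g * h) * cdg G (S * T) := by
  rw [lam_mul, cdg_mul, mul_assoc, ← mul_assoc (cdg G S), ← lam_mul_cdg]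
  simp only [mul_assoc]

lemma star_lc (g : G) (S : B K) : star (lam K g * cdg G S) = lam K g⁻¹ * cdg G (star S) := by
  rw [star_mul, star_lam, star_cdg, lam_mul_cdg]

lemma gen_mul (π : G →* unitary (B K)) (g h : G) : gen π (g * h) = gen π g * gen π h := by
  rw [gen, gen, gen, lc_mul, map_mul]; rfl

lemma gen_one (π : G →* unitary (B K)) : gen π 1 = 1 := by simp [gen]

lemma star_gen (π : G →* unitary (B K)) (g : G) : star (gen π g) = gen π g⁻¹ := by
  rw [gen, gen, star_lc, map_inv]; rfl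

lemma star_cpt {x : B (L G K)} (hx : x ∈ cpt K) : star x ∈ cpt K := by
  obtain ⟨g, k, k', rfl⟩ := hx
  exact ⟨g⁻¹, k', k, by rw [star_lc, ContinuousLinearMap.star_eq_adjoint, adjoint_rankOne]⟩

lemma lc_mul_cpt (g : G) (S : B K) {x : B (L G K)} (hx : x ∈ cpt K) :
    lam K g * cdg G S * x ∈ cpt K := by
  obtain ⟨h, k, k', rfl⟩ := hx
  exact ⟨g * h, S k, k', by rw [lc_mul]; exact congrArg _ (congrArg _ (comp_rankOne k k' S))⟩

lemma cpt_mul_lc (g : G) (S : B K) {x : B (L G K)} (hx : x ∈ cpt K) :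
    x * (lam K g * cdg G S) ∈ cpt K := by
  have := star_cpt (lc_mul_cpt g⁻¹ (star S) (star_cpt hx))
  rwa [← star_lc, star_mul, star_star, star_star] at this

/-- the algebra `D_π` as a subspace -/
noncomputable abbrev DD (π : G →* unitary (B K)) : Submodule ℂ (B (L G K)) := csp (Set.range (gen π))

/-- the ideal `I` as a subspace -/
noncomputable abbrev II (K : Type) [NormedAddCommGroup K] [InnerProductSpace ℂ K]
    [CompleteSpace K] : Submodule ℂ (B (L G K)) := csp (cpt K)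

variable {π : G →* unitary (B K)} {x y : B (L G K)}

lemma DD_mul (hx : x ∈ DD π) (hy : y ∈ DD π) : x * y ∈ DD π :=
  csp_mul (by rintro _ ⟨g, rfl⟩ _ ⟨h, rfl⟩; exact ⟨g * h, gen_mul π g h⟩) hx hy

lemma DD_star (hx : x ∈ DD π) : star x ∈ DD π :=
  csp_star (by rintro _ ⟨g, rfl⟩; exact ⟨g⁻¹, (star_gen π g).symm⟩) hx

lemma DD_one : (1 : B (L G K)) ∈ DD π := subset_csp ⟨1, gen_one π⟩

lemma II_star (hx : x ∈ II K) : star x ∈ II K := csp_star (fun _ => star_cpt) hx

lemma II_mul (hx : x ∈ II K) (hy : y ∈ II K) : x * y ∈ II K :=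
  csp_mul (by rintro _ ⟨g, k, k', rfl⟩ t ht; exact lc_mul_cpt g _ ht) hx hy

lemma DD_mul_II (hx : x ∈ DD π) (hy : y ∈ II K) : x * y ∈ II K :=
  csp_mul (by rintro _ ⟨g, rfl⟩ t ht; exact lc_mul_cpt g _ ht) hx hy

lemma II_mul_DD (hx : x ∈ II K) (hy : y ∈ DD π) : x * y ∈ II K :=
  csp_mul (by rintro t ht _ ⟨g, rfl⟩; exact cpt_mul_lc g _ ht) hx hy

/-- the algebra `A_π = D_π + I` -/
noncomputable def alg (π : G →* unitary (B K)) : StarSubalgebra ℂ (B (L G K)) where
  carrier := {x | ∃ d ∈ DD π, ∃ i ∈ II K, x = d + i}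
  mul_mem' := by
    rintro _ _ ⟨d, hd, i, hi, rfl⟩ ⟨d', hd', i', hi', rfl⟩
    exact ⟨d * d', DD_mul hd hd', d * i' + i * d' + i * i',
      add_mem (add_mem (DD_mul_II hd hi') (II_mul_DD hi hd')) (II_mul hi hi'), by noncomm_ring⟩
  add_mem' := by
    rintro _ _ ⟨d, hd, i, hi, rfl⟩ ⟨d', hd', i', hi', rfl⟩
    exact ⟨d + d', add_mem hd hd', i + i', add_mem hi hi', by abel⟩
  algebraMap_mem' c := ⟨c • 1, Submodule.smul_mem _ _ DD_one, 0, zero_mem _, by
    rw [Algebra.algebraMap_eq_smul_one, add_zero]⟩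
  star_mem' := by
    rintro _ ⟨d, hd, i, hi, rfl⟩
    exact ⟨star d, DD_star hd, star i, II_star hi, star_add _ _⟩

lemma mem_alg : x ∈ alg π ↔ ∃ d ∈ DD π, ∃ i ∈ II K, x = d + i := Iff.rfl

lemma rho_mem_Comm (g : G) : rho K g ∈ Comm K := fun h S => by
  rw [← mul_assoc, ← lam_mul_rho, mul_assoc, rho_mul_cdg, mul_assoc]

lemma Comm.mul (hx : x ∈ Comm K) (hy : y ∈ Comm K) : x * y ∈ Comm K := fun g S => by
  rw [mul_assoc, hy, ← mul_assoc, hx, mul_assoc _ x]

lemma Comm.star (hx : x ∈ Comm K) : star x ∈ Comm K := fun g S => by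
  have := congrArg Star.star (hx g⁻¹ (Star.star S))
  rw [star_mul, star_mul _ x, star_lc, _root_.inv_inv, star_star] at this
  exact this.symm

lemma Comm.comm_DD {c : B (L G K)} (hc : c ∈ Comm K) (hx : x ∈ DD π) : c * x = x * c :=
  csp_comm (by rintro _ ⟨g, rfl⟩; exact hc g _) hx

lemma Comm.comm_II {c : B (L G K)} (hc : c ∈ Comm K) (hx : x ∈ II K) : c * x = x * c :=
  csp_comm (by rintro _ ⟨g, k, k', rfl⟩; exact hc g _) hx

end Crest.Agent.R78.NS
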