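import Crest.Agent.R78.PSL2

/-! Row 78 (S0104, S0105): first letters in the free group on countably many generators. -/

set_option autoImplicit false
open Filter

namespace Crest.Agent.R78.NS

/-- the free group on countably many generators -/
abbrev G : Type := FreeGroup ℕ

/-- letters -/
abbrev Λ : Type := ℕ × Bool

/-- the group element of a letter -/
def val (t : Λ) : G := FreeGroup.mk [t]

/-- the inverse letter -/
def inv (t : Λ) : Λ := (t.1, !t.2)

/-- the first letter of the reduced word -/
def hd (x : G) : Option Λ := x.toWord.head?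

@[simp] lemma inv_inv (t : Λ) : inv (inv t) = t := by simp [inv]

lemma val_true (i : ℕ) : val (i, true) = FreeGroup.of i := rfl

lemma val_inv (t : Λ) : val (inv t) = (val t)⁻¹ := by
  rw [val, val, FreeGroup.inv_mk]; rfl

lemma val_false (i : ℕ) : val (i, false) = (FreeGroup.of i)⁻¹ := val_inv (i, true)

lemma mk_cons (t : Λ) (w : List Λ) : FreeGroup.mk (t :: w) = val t * FreeGroup.mk w := by
  rw [val, FreeGroup.mul_mk]; rfl

@[simp] lemma hd_one : hd 1 = none := by simp [hd]

lemma eq_one_of_hd {x : G} (h : hd x = none) : x = 1 := by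
  simpa [hd] using h

lemma toWord_val_mul {t : Λ} {x : G} (h : hd x ≠ some (inv t)) :
    (val t * x).toWord = t :: x.toWord := by
  have h1 : FreeGroup.IsReduced (t :: x.toWord) := by
    refine List.isChain_cons.2 ⟨fun y hy h1 => ?_, FreeGroup.isReduced_toWord⟩
    by_contra h2
    apply h
    rw [hd, Option.mem_def.1 hy]
    obtain ⟨a, b⟩ := t
    obtain ⟨a', b'⟩ := y
    simp only [inv] at *
    subst h1
    cases b <;> cases b' <;> simp_all
  conv_lhs => rw [← FreeGroup.mk_toWord (x := x), ← mk_cons]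
  rw [FreeGroup.toWord_mk, h1.reduce_eq]

/-- ping-pong for left multiplication -/
lemma hd_val_mul {t : Λ} {x : G} (h : hd x ≠ some (inv t)) : hd (val t * x) = some t := by
  rw [hd, toWord_val_mul h]; rfl

@[simp] lemma hd_val (t : Λ) : hd (val t) = some t := by
  have := hd_val_mul (t := t) (x := 1) (by simp)
  rwa [mul_one] at this

lemma val_ne_one (t : Λ) : val t ≠ 1 := fun h => by
  have := hd_val t
  rw [h] at this
  simp at this

lemma of_ne_one (i : ℕ) : (FreeGroup.of i : G) ≠ 1 := val_ne_one (i, true)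

lemma hd_inv_of_mul {i : ℕ} {x : G} (h : hd x ≠ some (i, true)) :
    hd ((FreeGroup.of i)⁻¹ * x) = some (i, false) := by
  rw [← val_false]; exact hd_val_mul h

lemma hd_mul_inv {t : Λ} {x : G} (hx : x ≠ 1) (h : hd x⁻¹ ≠ some (inv t)) :
    hd (x * (val t)⁻¹) = hd x := by
  have h1 := toWord_val_mul h
  have h2 : x * (val t)⁻¹ = (val t * x⁻¹)⁻¹ := by group
  rw [hd, h2, FreeGroup.toWord_inv, h1, FreeGroup.toWord_inv, FreeGroup.invRev_cons,
    FreeGroup.invRev_invRev, hd]
  have : x.toWord ≠ [] := by simpa using hx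
  rw [List.head?_append_of_ne_nil _ this]

/-- ping-pong for conjugation -/
lemma hd_conj {t : Λ} {x : G} (hx : x ≠ 1) (h : hd x ≠ some (inv t)) (h' : hd x⁻¹ ≠ some (inv t)) :
    hd (val t * x * (val t)⁻¹) = some t := by
  rw [mul_assoc]
  exact hd_val_mul (by rwa [hd_mul_inv hx h'])

/-- the conjugates `aₙ g aₙ⁻¹` of `g ≠ 1` leave every point -/
lemma icc {g : G} (hg : g ≠ 1) (y : G) :
    ∀ᶠ n in atTop, FreeGroup.of n * g * (FreeGroup.of n)⁻¹ ≠ y := by
  have key : ∀ o : Option Λ, ∀ b : Bool, ∀ᶠ n in atTop, o ≠ some (n, b) := by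
    intro o b
    cases o with
    | none => simp
    | some t =>
      filter_upwards [eventually_gt_atTop t.1] with n hn h
      rw [Option.some.inj h] at hn
      exact lt_irrefl _ hn
  filter_upwards [key (hd g) false, key (hd g⁻¹) false, key (hd y) true] with n h1 h2 h3 h
  apply h3
  rw [← h, ← val_true]
  exact hd_conj hg h1 h2

end Crest.Agent.R78.NS
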