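import Mathlib

/-! Row 78 (S0104, S0105): operators on `ℓ²(ι; E)`. -/

set_option autoImplicit false
set_option linter.unusedSectionVars false
open scoped InnerProductSpace ENNReal

namespace Crest.Agent.R78.NS

/-- `ℓ²(ι; E)` -/
abbrev L (ι E : Type) [NormedAddCommGroup E] : Type := lp (fun _ : ι => E) 2

/-- bounded operators -/
abbrev B (E : Type) [NormedAddCommGroup E] [InnerProductSpace ℂ E] : Type := E →L[ℂ] E

section Basic
variable {ι E F F' : Type} [NormedAddCommGroup E] [InnerProductSpace ℂ E]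
  [NormedAddCommGroup F] [InnerProductSpace ℂ F] [NormedAddCommGroup F'] [InnerProductSpace ℂ F']

lemma l2_summable (ξ : L ι E) : Summable fun i => ‖ξ i‖ ^ 2 := by
  have := (lp.memℓp ξ).summable (by norm_num)
  simpa using this

lemma l2_norm_sq (ξ : L ι E) : ‖ξ‖ ^ 2 = ∑' i, ‖ξ i‖ ^ 2 := by
  have := lp.norm_rpow_eq_tsum (p := 2) (by norm_num) ξ
  simpa using this

lemma l2_sum_le (ξ : L ι E) (s : Finset ι) : ∑ i ∈ s, ‖ξ i‖ ^ 2 ≤ ‖ξ‖ ^ 2 := by
  rw [l2_norm_sq]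
  exact (l2_summable ξ).sum_le_tsum s fun i _ => by positivity

lemma l2_apply_le (ξ : L ι E) (i : ι) : ‖ξ i‖ ≤ ‖ξ‖ := lp.norm_apply_le_norm (by norm_num) ξ i

lemma mem_l2 {f : ι → E} (h : Summable fun i => ‖f i‖ ^ 2) : Memℓp f 2 := by
  apply memℓp_gen
  simpa using h

lemma l2_ext {ξ η : L ι E} (h : ∀ i, ξ i = η i) : ξ = η := lp.ext (funext h)

lemma op_ext {S T : F' →L[ℂ] L ι F} (h : ∀ ξ i, S ξ i = T ξ i) : S = T :=
  ContinuousLinearMap.ext fun ξ => l2_ext (h ξ)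

@[simp] lemma l2_add_apply (ξ η : L ι E) (i : ι) : (ξ + η) i = ξ i + η i := rfl
@[simp] lemma l2_sub_apply (ξ η : L ι E) (i : ι) : (ξ - η) i = ξ i - η i := rfl
@[simp] lemma l2_neg_apply (ξ : L ι E) (i : ι) : (-ξ) i = -ξ i := rfl
@[simp] lemma l2_smul_apply (c : ℂ) (ξ : L ι E) (i : ι) : (c • ξ) i = c • ξ i := rfl
@[simp] lemma l2_zero_apply (i : ι) : (0 : L ι E) i = 0 := rfl

lemma l2_sum_apply {κ : Type*} (s : Finset κ) (f : κ → L ι E) (i : ι) :
    (∑ k ∈ s, f k) i = ∑ k ∈ s, f k i := by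
  rw [lp.coeFn_sum, Finset.sum_apply]

/-- pointwise domination gives domination of the norms -/
lemma l2_norm_le {ξ : L ι E} {η : L ι F} {c : ℝ} (hc : 0 ≤ c) (h : ∀ i, ‖ξ i‖ ≤ c * ‖η i‖) :
    ‖ξ‖ ≤ c * ‖η‖ := by
  refine (sq_le_sq₀ (by positivity) (by positivity)).mp ?_
  rw [mul_pow, l2_norm_sq, l2_norm_sq, ← tsum_mul_left]
  refine Summable.tsum_le_tsum (fun i => ?_) (l2_summable _) ((l2_summable η).mul_left _)
  rw [← mul_pow]
  gcongr
  exact h i

/-- A uniformly bounded family of operators. -/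
def Bd (T : ι → E →L[ℂ] F) : Prop := ∃ c : ℝ, ∀ i, ‖T i‖ ≤ c

lemma Bd.const (T : E →L[ℂ] F) : Bd fun _ : ι => T := ⟨‖T‖, fun _ => le_rfl⟩

lemma Bd.ite (p : ι → Prop) [DecidablePred p] (S T : E →L[ℂ] F) :
    Bd fun i : ι => if p i then S else T :=
  ⟨max ‖S‖ ‖T‖, fun i => by
    dsimp only; split_ifs; exacts [le_max_left _ _, le_max_right _ _]⟩

lemma Bd.comp {S : ι → F →L[ℂ] F'} {T : ι → E →L[ℂ] F} (hS : Bd S) (hT : Bd T) :
    Bd fun i => S i ∘L T i := by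
  obtain ⟨a, ha⟩ := hS
  obtain ⟨b, hb⟩ := hT
  exact ⟨a * b, fun i => ((S i).opNorm_comp_le _).trans
    (mul_le_mul (ha i) (hb i) (norm_nonneg _) ((norm_nonneg _).trans (ha i)))⟩

lemma dg_summable {T : ι → E →L[ℂ] F} {c : ℝ} (h : ∀ i, ‖T i‖ ≤ c) (ξ : L ι E) :
    Summable fun i => ‖T i (ξ i)‖ ^ 2 := by
  refine Summable.of_nonneg_of_le (fun i => by positivity) (fun i => ?_)
    ((l2_summable ξ).mul_left (c ^ 2))
  rw [← mul_pow]
  gcongr
  exact ((T i).le_opNorm _).trans (by gcongr; exact h i)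

/-- The diagonal operator as a linear map. -/
noncomputable def dgLin (T : ι → E →L[ℂ] F) (h : Bd T) : L ι E →ₗ[ℂ] L ι F where
  toFun ξ := ⟨fun i => T i (ξ i), mem_l2 (dg_summable h.choose_spec ξ)⟩
  map_add' ξ ζ := l2_ext fun i => map_add (T i) (ξ i) (ζ i)
  map_smul' c ξ := l2_ext fun i => map_smul (T i) c (ξ i)

lemma norm_dgLin_le {T : ι → E →L[ℂ] F} (h : Bd T) {c : ℝ} (hc : 0 ≤ c)
    (hT : ∀ i, ‖T i‖ ≤ c) (ξ : L ι E) : ‖dgLin T h ξ‖ ≤ c * ‖ξ‖ :=
  l2_norm_le hc fun i => ((T i).le_opNorm _).trans (by gcongr; exact hT i)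

open Classical in
/-- The diagonal operator of a bounded family (zero if the family is unbounded). -/
noncomputable def dg (T : ι → E →L[ℂ] F) : L ι E →L[ℂ] L ι F :=
  if h : Bd T then
    (dgLin T h).mkContinuous (max h.choose 0)
      (norm_dgLin_le h (le_max_right _ _) fun i => (h.choose_spec i).trans (le_max_left _ _))
  else 0

lemma dg_apply {T : ι → E →L[ℂ] F} (h : Bd T) (ξ : L ι E) (i : ι) : dg T ξ i = T i (ξ i) := by
  unfold dg
  rw [dif_pos h]
  rfl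

lemma norm_dg_le {T : ι → E →L[ℂ] F} {c : ℝ} (hc : 0 ≤ c) (hT : ∀ i, ‖T i‖ ≤ c) : ‖dg T‖ ≤ c := by
  have h : Bd T := ⟨c, hT⟩
  refine ContinuousLinearMap.opNorm_le_bound _ hc fun ξ => ?_
  unfold dg
  rw [dif_pos h]
  exact norm_dgLin_le h hc hT ξ

/-- `1 ⊗ T` -/
noncomputable def cdg (ι : Type) (T : E →L[ℂ] F) : L ι E →L[ℂ] L ι F := dg fun _ => T

@[simp] lemma cdg_apply (T : E →L[ℂ] F) (ξ : L ι E) (i : ι) : cdg ι T ξ i = T (ξ i) :=
  dg_apply (Bd.const T) ξ i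

lemma norm_cdg_le (T : E →L[ℂ] F) : ‖cdg ι T‖ ≤ ‖T‖ := norm_dg_le (norm_nonneg _) fun _ => le_rfl

lemma cdg_comp (S : F →L[ℂ] F') (T : E →L[ℂ] F) : cdg ι (S ∘L T) = cdg ι S ∘L cdg ι T :=
  op_ext fun ξ i => by simp

lemma cdg_mul (S T : B E) : cdg ι (S * T) = cdg ι S * cdg ι T := cdg_comp S T

@[simp] lemma cdg_one : cdg ι (1 : B E) = 1 := op_ext fun ξ i => by simp

@[simp] lemma cdg_zero : cdg ι (0 : E →L[ℂ] F) = 0 := op_ext fun ξ i => by simp

lemma cdg_add (S T : E →L[ℂ] F) : cdg ι (S + T) = cdg ι S + cdg ι T := op_ext fun ξ i => by simp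

lemma cdg_sub (S T : E →L[ℂ] F) : cdg ι (S - T) = cdg ι S - cdg ι T := op_ext fun ξ i => by simp

lemma cdg_smul (c : ℂ) (T : E →L[ℂ] F) : cdg ι (c • T) = c • cdg ι T := op_ext fun ξ i => by simp

lemma cdg_sum {κ : Type*} (s : Finset κ) (T : κ → E →L[ℂ] F) :
    cdg ι (∑ k ∈ s, T k) = ∑ k ∈ s, cdg ι (T k) :=
  op_ext fun ξ i => by
    rw [cdg_apply, sum_apply, sum_apply, l2_sum_apply]; simp only [cdg_apply]

/-- Reindexing as a linear map. -/
noncomputable def shLin (e : ι ≃ ι) : L ι E →ₗ[ℂ] L ι E where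
  toFun ξ := ⟨fun i => ξ (e i), mem_l2
    ((e.summable_iff (f := fun i => ‖ξ i‖ ^ 2)).mpr (l2_summable ξ))⟩
  map_add' _ _ := l2_ext fun _ => rfl
  map_smul' _ _ := l2_ext fun _ => rfl

lemma norm_shLin (e : ι ≃ ι) (ξ : L ι E) : ‖shLin e ξ‖ = ‖ξ‖ := by
  refine (sq_eq_sq₀ (by positivity) (by positivity)).mp ?_
  rw [l2_norm_sq, l2_norm_sq]
  exact e.tsum_eq (fun i => ‖ξ i‖ ^ 2)

/-- `(sh e ξ) i = ξ (e i)`. -/
noncomputable def sh (E : Type) [NormedAddCommGroup E] [InnerProductSpace ℂ E] (e : ι ≃ ι) :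
    B (L ι E) :=
  (shLin e).mkContinuous 1 fun ξ => by rw [norm_shLin, one_mul]

@[simp] lemma sh_apply (e : ι ≃ ι) (ξ : L ι E) (i : ι) : sh E e ξ i = ξ (e i) := rfl

@[simp] lemma norm_sh_apply (e : ι ≃ ι) (ξ : L ι E) : ‖sh E e ξ‖ = ‖ξ‖ := norm_shLin e ξ

lemma norm_sh_le (e : ι ≃ ι) : ‖sh E e‖ ≤ 1 :=
  ContinuousLinearMap.opNorm_le_bound _ zero_le_one fun ξ => by rw [norm_sh_apply, one_mul]

lemma sh_comp_cdg (e : ι ≃ ι) (T : E →L[ℂ] F) : sh F e ∘L cdg ι T = cdg ι T ∘L sh E e :=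
  op_ext fun ξ i => by simp

open Classical in
/-- The vector `v` placed at the point `i`. -/
noncomputable def sg (i : ι) : E →L[ℂ] L ι E := lp.singleContinuousLinearMap ℂ (fun _ : ι => E) 2 i

open Classical in
lemma sg_def (i : ι) (v : E) : sg i v = lp.single (E := fun _ : ι => E) 2 i v := rfl

@[simp] lemma sg_apply_self (i : ι) (v : E) : sg i v i = v := by
  classical
  rw [sg_def, lp.single_apply_self]

lemma sg_apply_ne {i j : ι} (h : j ≠ i) (v : E) : sg i v j = 0 := by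
  classical
  rw [sg_def, lp.single_apply_ne _ _ _ h]

lemma sg_apply [DecidableEq ι] (i j : ι) (v : E) : sg i v j = if j = i then v else 0 := by
  split_ifs with h
  · rw [h, sg_apply_self]
  · exact sg_apply_ne h v

@[simp] lemma norm_sg (i : ι) (v : E) : ‖sg i v‖ = ‖v‖ := by
  classical
  rw [sg_def, lp.norm_single (by norm_num)]

lemma norm_sg_le (i : ι) : ‖(sg i : E →L[ℂ] L ι E)‖ ≤ 1 :=
  ContinuousLinearMap.opNorm_le_bound _ zero_le_one fun v => by rw [norm_sg, one_mul]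

lemma inner_sg_left (i : ι) (v : E) (ξ : L ι E) : ⟪sg i v, ξ⟫_ℂ = ⟪v, ξ i⟫_ℂ := by
  classical
  rw [sg_def, lp.inner_single_left]

lemma inner_sg_right (i : ι) (v : E) (ξ : L ι E) : ⟪ξ, sg i v⟫_ℂ = ⟪ξ i, v⟫_ℂ := by
  classical
  rw [sg_def, lp.inner_single_right]

/-- evaluation at `i` -/
noncomputable def ev (i : ι) : L ι E →L[ℂ] E :=
  LinearMap.mkContinuous ⟨⟨fun ξ => ξ i, fun _ _ => rfl⟩, fun _ _ => rfl⟩ 1
    fun ξ => by rw [one_mul]; exact l2_apply_le ξ i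

@[simp] lemma ev_apply (i : ι) (ξ : L ι E) : ev i ξ = ξ i := rfl

lemma norm_ev_le (i : ι) : ‖(ev i : L ι E →L[ℂ] E)‖ ≤ 1 :=
  ContinuousLinearMap.opNorm_le_bound _ zero_le_one fun ξ => by
    rw [one_mul]; exact l2_apply_le ξ i

lemma dg_sg {T : ι → E →L[ℂ] F} (h : Bd T) (i : ι) (v : E) : dg T (sg i v) = sg i (T i v) := by
  refine l2_ext fun k => ?_
  rw [dg_apply h]
  by_cases hk : k = i
  · subst hk; simp
  · rw [sg_apply_ne hk, sg_apply_ne hk, map_zero]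

@[simp] lemma cdg_sg (T : E →L[ℂ] F) (i : ι) (v : E) : cdg ι T (sg i v) = sg i (T v) :=
  dg_sg (Bd.const T) i v

lemma sh_sg (e : ι ≃ ι) (i : ι) (v : E) : sh E e (sg i v) = sg (e.symm i) v := by
  refine l2_ext fun k => ?_
  rw [sh_apply]
  by_cases hk : k = e.symm i
  · subst hk; simp
  · rw [sg_apply_ne hk, sg_apply_ne]
    intro h; exact hk (by rw [← h]; simp)

/-- a vector orthogonal to all `sg i v` vanishes -/
lemma eq_zero_of_inner_sg {ξ : L ι E} (h : ∀ i v, ⟪sg i v, ξ⟫_ℂ = 0) : ξ = 0 :=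
  l2_ext fun i => by
    have := h i (ξ i)
    rwa [inner_sg_left, inner_self_eq_zero] at this

/-- operators that agree on the vectors `sg i v` agree -/
lemma ext_sg [CompleteSpace E] {S T : L ι E →L[ℂ] F} (h : ∀ i v, S (sg i v) = T (sg i v)) :
    S = T := by
  classical
  ext ξ
  have h1 := lp.hasSum_single (E := fun _ : ι => E) (p := 2) (by norm_num) ξ
  refine (S.hasSum h1).unique ?_
  convert T.hasSum h1 using 2 with i
  have := h i (ξ i)
  rw [sg_def] at this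
  convert this

variable [CompleteSpace E] [CompleteSpace F]

lemma Bd.adjoint {T : ι → E →L[ℂ] F} (h : Bd T) :
    Bd fun i => ContinuousLinearMap.adjoint (T i) := by
  obtain ⟨c, hc⟩ := h
  exact ⟨c, fun i => by simpa using hc i⟩

lemma adjoint_dg {T : ι → E →L[ℂ] F} (h : Bd T) :
    ContinuousLinearMap.adjoint (dg T) = dg fun i => ContinuousLinearMap.adjoint (T i) := by
  symm
  rw [ContinuousLinearMap.eq_adjoint_iff]
  intro x y
  rw [lp.inner_eq_tsum, lp.inner_eq_tsum]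
  refine tsum_congr fun i => ?_
  rw [dg_apply h, dg_apply h.adjoint, ContinuousLinearMap.adjoint_inner_left]

lemma star_dg {T : ι → B E} (h : Bd T) : star (dg T) = dg fun i => star (T i) := adjoint_dg h

lemma adjoint_cdg (T : E →L[ℂ] F) :
    ContinuousLinearMap.adjoint (cdg ι T) = cdg ι (ContinuousLinearMap.adjoint T) :=
  adjoint_dg (Bd.const T)

lemma star_cdg (T : B E) : star (cdg ι T) = cdg ι (star T) := adjoint_cdg T

lemma star_sh (e : ι ≃ ι) : star (sh E e) = sh E e.symm := by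
  symm
  rw [ContinuousLinearMap.star_eq_adjoint, ContinuousLinearMap.eq_adjoint_iff]
  intro x y
  rw [lp.inner_eq_tsum, lp.inner_eq_tsum, ← e.tsum_eq]
  simp

lemma adjoint_sg (i : ι) : ContinuousLinearMap.adjoint (sg i : E →L[ℂ] L ι E) = ev i := by
  symm
  rw [ContinuousLinearMap.eq_adjoint_iff]
  intro x y
  rw [inner_sg_right, ev_apply]

lemma adjoint_ev (i : ι) : ContinuousLinearMap.adjoint (ev i : L ι E →L[ℂ] E) = sg i := by
  rw [← adjoint_sg, ContinuousLinearMap.adjoint_adjoint]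

lemma sh_mem_unitary (e : ι ≃ ι) : sh E e ∈ unitary (B (L ι E)) := by
  rw [Unitary.mem_iff, star_sh]
  exact ⟨op_ext fun ξ i => by simp, op_ext fun ξ i => by simp⟩

lemma norm_unitary_le {T : B E} (h : T ∈ unitary (B E)) : ‖T‖ ≤ 1 :=
  ContinuousLinearMap.opNorm_le_bound _ zero_le_one fun ξ => by
    rw [one_mul, ContinuousLinearMap.norm_map_of_mem_unitary h]

lemma Bd.of_unitary {T : ι → B E} (h : ∀ i, T i ∈ unitary (B E)) : Bd T :=
  ⟨1, fun i => norm_unitary_le (h i)⟩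

lemma dg_mem_unitary {T : ι → B E} (h : ∀ i, T i ∈ unitary (B E)) : dg T ∈ unitary (B (L ι E)) := by
  have hb := Bd.of_unitary h
  have hb' : Bd fun i => star (T i) := hb.adjoint
  rw [Unitary.mem_iff, star_dg hb]
  refine ⟨op_ext fun ξ i => ?_, op_ext fun ξ i => ?_⟩
  · rw [mul_apply_eq_comp, dg_apply hb', dg_apply hb, ← mul_apply_eq_comp,
      (Unitary.mem_iff.1 (h i)).1]
    rfl
  · rw [mul_apply_eq_comp, dg_apply hb, dg_apply hb', ← mul_apply_eq_comp,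
      (Unitary.mem_iff.1 (h i)).2]
    rfl

lemma cdg_mem_unitary {T : B E} (h : T ∈ unitary (B E)) : cdg ι T ∈ unitary (B (L ι E)) :=
  dg_mem_unitary fun _ => h

/-- `1 ⊗ W` for a unitary `W` -/
noncomputable def cdgU (ι : Type) (W : unitary (B E)) : unitary (B (L ι E)) :=
  ⟨cdg ι W.1, cdg_mem_unitary W.2⟩

@[simp] lemma cdgU_coe (W : unitary (B E)) : (cdgU ι W : B (L ι E)) = cdg ι W.1 := rfl

end Basic

section Grp
variable {Γ E F : Type} [Group Γ] [NormedAddCommGroup E] [InnerProductSpace ℂ E]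
  [NormedAddCommGroup F] [InnerProductSpace ℂ F]

/-- left translation -/
noncomputable def lam (E : Type) [NormedAddCommGroup E] [InnerProductSpace ℂ E] (g : Γ) :
    B (L Γ E) := sh E (Equiv.mulLeft g⁻¹)

/-- right translation -/
noncomputable def rho (E : Type) [NormedAddCommGroup E] [InnerProductSpace ℂ E] (g : Γ) :
    B (L Γ E) := sh E (Equiv.mulRight g)

@[simp] lemma lam_apply (g : Γ) (ξ : L Γ E) (x : Γ) : lam E g ξ x = ξ (g⁻¹ * x) := rfl

@[simp] lemma rho_apply (g : Γ) (ξ : L Γ E) (x : Γ) : rho E g ξ x = ξ (x * g) := rfl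

lemma lam_mul (g h : Γ) : lam E (g * h) = lam E g * lam E h :=
  op_ext fun ξ x => by simp [mul_assoc]

lemma rho_mul (g h : Γ) : rho E (g * h) = rho E g * rho E h :=
  op_ext fun ξ x => by simp [mul_assoc]

@[simp] lemma lam_one : lam E (1 : Γ) = 1 := op_ext fun ξ x => by simp

@[simp] lemma rho_one : rho E (1 : Γ) = 1 := op_ext fun ξ x => by simp

lemma lam_mul_rho (g h : Γ) : lam E g * rho E h = rho E h * lam E g :=
  op_ext fun ξ x => by simp [mul_assoc]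

lemma lam_comp_cdg (g : Γ) (T : E →L[ℂ] F) : lam F g ∘L cdg Γ T = cdg Γ T ∘L lam E g :=
  sh_comp_cdg _ T

lemma lam_mul_cdg (g : Γ) (T : B E) : lam E g * cdg Γ T = cdg Γ T * lam E g := sh_comp_cdg _ T

lemma rho_mul_cdg (g : Γ) (T : B E) : rho E g * cdg Γ T = cdg Γ T * rho E g := sh_comp_cdg _ T

lemma lam_sg (g x : Γ) (v : E) : lam E g (sg x v) = sg (g * x) v := by
  rw [lam, sh_sg]; simp

lemma rho_sg (g x : Γ) (v : E) : rho E g (sg x v) = sg (x * g⁻¹) v := by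
  rw [rho, sh_sg]; simp

@[simp] lemma norm_lam_apply (g : Γ) (ξ : L Γ E) : ‖lam E g ξ‖ = ‖ξ‖ := norm_sh_apply _ _

@[simp] lemma norm_rho_apply (g : Γ) (ξ : L Γ E) : ‖rho E g ξ‖ = ‖ξ‖ := norm_sh_apply _ _

lemma norm_lam_le (g : Γ) : ‖lam E g‖ ≤ 1 := norm_sh_le _

lemma norm_rho_le (g : Γ) : ‖rho E g‖ ≤ 1 := norm_sh_le _

variable [CompleteSpace E]

lemma star_lam (g : Γ) : star (lam E g) = lam E g⁻¹ := by
  rw [lam, star_sh]; simp [lam]

lemma star_rho (g : Γ) : star (rho E g) = rho E g⁻¹ := by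
  rw [rho, star_sh]; simp [rho]

lemma lam_mem_unitary (g : Γ) : lam E g ∈ unitary (B (L Γ E)) := sh_mem_unitary _

lemma rho_mem_unitary (g : Γ) : rho E g ∈ unitary (B (L Γ E)) := sh_mem_unitary _

end Grp

/-- `ℓ²(ι; E)` is separable -/
instance separable_L {ι E : Type} [Countable ι] [NormedAddCommGroup E]
    [TopologicalSpace.SeparableSpace E] : TopologicalSpace.SeparableSpace (L ι E) := by
  classical
  rw [← TopologicalSpace.isSeparable_univ_iff]
  have h1 : TopologicalSpace.IsSeparable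
      (⋃ s : Finset ι, Set.range fun f : s → E =>
        ∑ i : s, lp.single (E := fun _ : ι => E) 2 i.1 (f i)) := by
    refine .iUnion fun s => TopologicalSpace.isSeparable_range ?_
    refine continuous_finsetSum _ fun i _ => ?_
    exact (lp.isometry_single (E := fun _ : ι => E) (p := 2) i.1).continuous.comp
      (continuous_apply i)
  refine h1.closure.mono fun ξ _ => ?_
  have h2 := lp.hasSum_single (E := fun _ : ι => E) (p := 2) (by norm_num) ξ
  refine mem_closure_of_tendsto h2 (Filter.Eventually.of_forall fun s => ?_)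
  exact Set.mem_iUnion.2 ⟨s, fun i => ξ i.1, Finset.sum_coe_sort s
    (fun i => lp.single (E := fun _ : ι => E) 2 i (ξ i))⟩

end Crest.Agent.R78.NS
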