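import Crest.Agent.R78.SepB

/-! Row 78, S0105: the abstract non-conjugacy argument. -/

set_option autoImplicit false
set_option linter.unusedSectionVars false
set_option maxHeartbeats 400000
open scoped InnerProductSpace ENNReal
open Filter Topology

namespace Crest.Agent.R78.Sep

open Crest.Agent.R194

variable {G K : Type} [Group G] [NormedAddCommGroup K] [InnerProductSpace ℂ K] [CompleteSpace K]
variable {J : Set (K →L[ℂ] K)} {a a₀ : G →* (K →L[ℂ] K)}

/-- `B = u A u*` for a unitary `u`. -/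
def Conj {H : Type} [NormedAddCommGroup H] [InnerProductSpace ℂ H] [CompleteSpace H]
    (A B : StarSubalgebra ℂ (H →L[ℂ] H)) : Prop :=
  ∃ u : H →L[ℂ] H, u ∈ unitary (H →L[ℂ] H) ∧ ∀ y : H →L[ℂ] H, y ∈ B ↔ ∃ x ∈ A, y = u * x * star u

lemma Conj.refl {H : Type} [NormedAddCommGroup H] [InnerProductSpace ℂ H] [CompleteSpace H]
    (A : StarSubalgebra ℂ (H →L[ℂ] H)) : Conj A A :=
  ⟨1, one_mem _, fun y => by simp⟩

lemma Conj.trans {H : Type} [NormedAddCommGroup H] [InnerProductSpace ℂ H] [CompleteSpace H]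
    {A B C : StarSubalgebra ℂ (H →L[ℂ] H)} (h : Conj A B) (h' : Conj B C) : Conj A C := by
  obtain ⟨u, hu, h⟩ := h
  obtain ⟨v, hv, h'⟩ := h'
  refine ⟨v * u, mul_mem hv hu, fun y => ?_⟩
  rw [h']
  constructor
  · rintro ⟨x, hx, rfl⟩
    obtain ⟨z, hz, rfl⟩ := (h x).1 hx
    exact ⟨z, hz, by simp only [star_mul, mul_assoc]⟩
  · rintro ⟨z, hz, rfl⟩
    exact ⟨_, (h _).2 ⟨z, hz, rfl⟩, by simp only [star_mul, mul_assoc]⟩

lemma sum_norm_le {σ : Type} [Fintype σ] (hσ : Fintype.card σ = 16) (x : σ → ℝ) {M : ℝ}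
    (hM : 0 ≤ M) (h : ∑ s, x s ^ 2 ≤ M ^ 2) : ∑ s, x s ≤ 4 * M := by
  have := sq_sum_le_card_mul_sum_sq (s := Finset.univ) (f := x)
  rw [Finset.card_univ, hσ] at this
  refine le_trans (le_abs_self _) (abs_le_of_sq_le_sq ?_ (by positivity))
  push_cast at this
  linarith

lemma key_bound (h₀ : Dat J a₀) {σ : Type} [Fintype σ] (hσ : Fintype.card σ = 16)
    (θ : G → K →L[ℂ] K) (hθ : ∀ v, HasSum (fun t => ‖θ t v‖ ^ 2) (‖v‖ ^ 2))
    (hθa : ∀ t g, θ t * a₀ g = θ (g⁻¹ * t)) (b C R : σ → BB K)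
    (hb : ∀ s, b s ∈ Submodule.span ℂ (UA a₀)) {β : ℝ} (hβ : ∀ s, ‖b s‖ ≤ β)
    (hC : ∀ f, ∑ s, ‖C s f‖ ^ 2 ≤ ‖f‖ ^ 2) (hR : ∀ f, ∑ s, ‖star (R s) f‖ ^ 2 ≤ ‖f‖ ^ 2)
    (hcomm : ∀ s t, cst ℤ (θ t) * (C s + R s) = (C s + R s) * cst ℤ (θ t)) (f : LL ℤ K)
    (hf : ‖f‖ ≤ 1) : ∑ s, ‖⟪f, b s ((C s + R s) f)⟫_ℂ‖ ≤ 8 * β := by
  set Θ := iso (fun t => cst ℤ (θ t)) (hasSum_cst θ hθ) with hΘ
  have h1 : ∀ g f, Θ (cst ℤ (a₀ g) f) = shift (Equiv.mulLeft g⁻¹) (Θ f) := fun g f =>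
    lp.ext (funext fun t => by
      simp only [hΘ, iso_apply, shift_apply, Equiv.coe_mulLeft]
      rw [← mul_apply_eq_comp, ← cst_mul, hθa])
  have h2 : ∀ b ∈ Submodule.span ℂ (UA a₀), ∀ (w : BB K) f f',
      ⟪Θ f', cst G w (Θ (b f))⟫_ℂ = ⟪Θ (star b f'), cst G w (Θ f)⟫_ℂ := by
    intro b hb w f f'
    induction hb using Submodule.span_induction with
    | mem x hx =>
      obtain ⟨g, rfl⟩ := hx
      simp only
      rw [star_cst, h₀.star_a, h1, h1, ← mul_apply_eq_comp, cst_shift, mul_apply_eq_comp,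
        ← ContinuousLinearMap.adjoint_inner_left, adjoint_shift]
      simp
    | zero => simp
    | add x y _ _ hx hy => simp only [star_add, add_apply, map_add, inner_add_left,
        inner_add_right, hx, hy]
    | smul c x _ hx =>
      simp only [star_smul, smul_apply, map_smul, inner_smul_left, inner_smul_right, hx]
      simp
  have hβ0 : 0 ≤ β := by
    have : Nonempty σ := Fintype.card_pos_iff.1 (by omega)
    exact (norm_nonneg _).trans (hβ (Classical.arbitrary σ))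
  have h3 : ∀ s, ‖⟪f, b s ((C s + R s) f)⟫_ℂ‖ ≤
      β * ‖cst G (C s) (Θ f)‖ + β * ‖cst G (star (R s)) (Θ f)‖ := by
    intro s
    have e1 : Θ ((C s + R s) f) = cst G (C s) (Θ f) + cst G (R s) (Θ f) := by
      rw [← add_apply, ← cst_add]
      refine lp.ext (funext fun t => ?_)
      simp only [hΘ, iso_apply, cst_apply]
      rw [← mul_apply_eq_comp, hcomm, mul_apply_eq_comp]
    rw [← ContinuousLinearMap.adjoint_inner_left, ← ContinuousLinearMap.star_eq_adjoint,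
      ← Θ.inner_map_map, e1, inner_add_right, ← h2 _ (hb s) (R s),
      ← ContinuousLinearMap.adjoint_inner_left (cst G (R s)),
      ← ContinuousLinearMap.star_eq_adjoint, star_cst]
    refine (norm_add_le _ _).trans (add_le_add ((norm_inner_le_norm _ _).trans ?_)
      ((norm_inner_le_norm _ _).trans ?_))
    · gcongr
      rw [Θ.norm_map]
      refine ((star (b s)).le_opNorm f).trans ?_
      have e : ‖star (b s)‖ = ‖b s‖ := norm_star (b s)
      rw [e]
      nlinarith [hβ s, norm_nonneg (b s)]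
    · rw [mul_comm]
      gcongr
      rw [Θ.norm_map]
      refine ((b s).le_opNorm f).trans ?_
      nlinarith [hβ s, norm_nonneg (b s)]
  refine (Finset.sum_le_sum fun s _ => h3 s).trans ?_
  rw [Finset.sum_add_distrib, ← Finset.mul_sum, ← Finset.mul_sum]
  have c1 := sum_norm_le hσ _ (norm_nonneg _) (sum_cst_le C hC (Θ f))
  have c2 := sum_norm_le hσ _ (norm_nonneg _) (sum_cst_le (fun s => star (R s)) hR (Θ f))
  rw [Θ.norm_map] at c1 c2
  have c3 := mul_le_mul_of_nonneg_left (c1.trans (by linarith : 4 * ‖f‖ ≤ 4)) hβ0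
  have c4 := mul_le_mul_of_nonneg_left (c2.trans (by linarith : 4 * ‖f‖ ≤ 4)) hβ0
  linarith

theorem not_conj (h : Dat J a) (h₀ : Dat J a₀) (tot : Tot J) {ξ : K} (hξ : ‖ξ‖ = 1)
    (htr : ∀ g g', ⟪ξ, a (g * g') ξ⟫_ℂ = ⟪ξ, a (g' * g) ξ⟫_ℂ)
    {σ : Type} [Fintype σ] (hσ : Fintype.card σ = 16) (gen : σ → G) (c r : σ → K →L[ℂ] K)
    (hρ : ∀ s, ∀ T ∈ J, T * (c s + r s) = (c s + r s) * T) (hρ1 : ∀ s, ‖c s + r s‖ ≤ 1)
    (hval : ∀ s, ⟪ξ, a (gen s) ((c s + r s) ξ)⟫_ℂ = 3 / 5)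
    (hc : ∀ v, ∑ s, ‖c s v‖ ^ 2 ≤ ‖v‖ ^ 2) (hr : ∀ v, ∑ s, ‖star (r s) v‖ ^ 2 ≤ ‖v‖ ^ 2)
    (θ : G → K →L[ℂ] K) (hθJ : ∀ t, θ t ∈ J) (hθ : ∀ v, HasSum (fun t => ‖θ t v‖ ^ 2) (‖v‖ ^ 2))
    (hθa : ∀ t g, θ t * a₀ g = θ (g⁻¹ * t)) : ¬ Conj h.alg h₀.alg := by
  rintro ⟨u, hu, hAB⟩
  have u1 : star u * u = 1 := hu.1
  have u2 : u * star u = 1 := hu.2
  have u1' : ∀ f, star u (u f) = f := fun f => by rw [← mul_apply_eq_comp, u1]; rfl
  have u2' : ∀ f, u (star u f) = f := fun f => by rw [← mul_apply_eq_comp, u2]; rfl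
  have uin : ∀ f f', ⟪u f, u f'⟫_ℂ = ⟪f, f'⟫_ℂ := fun f f' => by
    rw [← ContinuousLinearMap.adjoint_inner_right, ← ContinuousLinearMap.star_eq_adjoint, u1']
  have un1 : ∀ f, ‖u f‖ = ‖f‖ := fun f => by
    rw [norm_eq_sqrt_re_inner (𝕜 := ℂ), uin, ← norm_eq_sqrt_re_inner]
  have un2 : ∀ f, ‖star u f‖ = ‖f‖ := fun f => by rw [← un1, u2']
  set ζ : ℕ → LL ℤ K := fun n => u (sgl (n : ℤ) ξ) with hζ
  have hζ1 : ∀ n, ‖ζ n‖ ≤ 1 := fun n => by simp only [hζ, un1, norm_sgl, hξ, le_refl]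
  have hJ0 : ∀ z ∈ Submodule.span ℂ (UJ J), Tendsto (fun n => z (ζ n)) atTop (𝓝 0) := by
    intro z hz
    refine span_UJ_tendsto (vanish h.star_mem hζ1 fun x hx y hy => ?_) hz
    obtain ⟨x', hx', rfl⟩ := (hAB x).1 (h₀.gen_mem (Or.inr hx))
    obtain ⟨y', hy', rfl⟩ := (hAB y).1 (h₀.gen_mem (Or.inr hy))
    refine (h.trace hξ htr hx' hy').congr fun n => ?_
    simp only [hζ, sub_apply, mul_apply_eq_comp, u1', ← map_sub, uin]
  have hcomm : ∀ s t, cst ℤ (θ t) * (u * cst ℤ (c s) * star u + u * cst ℤ (r s) * star u) =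
      (u * cst ℤ (c s) * star u + u * cst ℤ (r s) * star u) * cst ℤ (θ t) := by
    intro s t
    refine comm_cst tot (fun x hx => ?_) (h.mul _ (hθJ t))
    obtain ⟨x', hx', rfl⟩ := (hAB x).1 (h₀.gen_mem (Or.inr hx))
    have e1 : cst ℤ (c s + r s) ∈ Set.centralizer (h.alg : Set (BB K)) := by
      rw [h.centralizer tot]
      rintro _ ⟨i, j, T, hT, rfl⟩
      rw [un_mul_cst, cst_mul_un, hρ s T hT]
    have e2 := e1 x' hx'
    rw [← add_mul, ← mul_add, ← cst_add]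
    calc u * x' * star u * (u * cst ℤ (c s + r s) * star u)
        = u * (x' * (star u * u) * cst ℤ (c s + r s)) * star u := by noncomm_ring
      _ = u * (cst ℤ (c s + r s) * (star u * u) * x') * star u := by
          rw [u1, mul_one, mul_one, e2]
      _ = _ := by noncomm_ring
  have happ := fun s => h₀.approx ((hAB _).2 ⟨_, h.gen_mem (Or.inl ⟨gen s, rfl⟩), rfl⟩)
    (show (0 : ℝ) < 1 / 20 by norm_num)
  choose b hb j hj hbj using happ
  have hb1 : ∀ s, ‖b s‖ ≤ 21 / 20 := by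
    intro s
    refine (norm_le_add (hb s) (hj s)).trans ?_
    have e1 : ‖u * cst ℤ (a (gen s)) * star u‖ ≤ 1 := by
      have : u * cst ℤ (a (gen s)) * star u ∈ unitary (BB K) := by
        refine mul_mem (mul_mem hu ⟨?_, ?_⟩) (Unitary.star_mem hu)
        · rw [star_cst, ← cst_mul, h.star_a, ← map_mul, inv_mul_cancel, map_one, cst_one]
        · rw [star_cst, ← cst_mul, h.star_a, ← map_mul, mul_inv_cancel, map_one, cst_one]
      refine ContinuousLinearMap.opNorm_le_bound _ zero_le_one fun f => ?_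
      rw [ContinuousLinearMap.norm_map_of_mem_unitary this, one_mul]
    have e2 := norm_sub_le (u * cst ℤ (a (gen s)) * star u)
      (u * cst ℤ (a (gen s)) * star u - (b s + j s))
    rw [sub_sub_cancel] at e2
    linarith [hbj s]
  have hkey := fun n => key_bound h₀ hσ θ hθ hθa b (fun s => u * cst ℤ (c s) * star u)
    (fun s => u * cst ℤ (r s) * star u) hb hb1 (fun f => by
      simp only [mul_apply_eq_comp, un1]
      exact (sum_cst_le c hc _).trans_eq (by rw [un2])) (fun f => by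
      simp only [star_mul, star_star, mul_apply_eq_comp, un1, star_cst]
      exact (sum_cst_le (fun s => star (r s)) hr _).trans_eq (by rw [un2])) hcomm (ζ n) (hζ1 n)
  have hlow : ∀ n s, (3 / 5 : ℝ) ≤
      ‖⟪ζ n, b s ((u * cst ℤ (c s) * star u + u * cst ℤ (r s) * star u) (ζ n))⟫_ℂ‖ +
        (‖star (j s) (ζ n)‖ + 1 / 20) := by
    intro n s
    set Y := (u * cst ℤ (c s) * star u + u * cst ℤ (r s) * star u) (ζ n) with hY
    have hY' : Y = u (sgl (n : ℤ) ((c s + r s) ξ)) := by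
      rw [hY, ← add_mul, ← mul_add, ← cst_add]
      simp only [hζ, mul_apply_eq_comp, u1', cst_sgl]
    have hY1 : ‖Y‖ ≤ 1 := by
      rw [hY', un1, norm_sgl]
      refine ((c s + r s).le_opNorm ξ).trans ?_
      rw [hξ, mul_one]
      exact hρ1 s
    have e1 : ⟪ζ n, (u * cst ℤ (a (gen s)) * star u) Y⟫_ℂ = 3 / 5 := by
      simp only [hY', hζ, mul_apply_eq_comp, u1', uin, cst_sgl, inner_sgl_left, sgl_apply, if_true,
        hval]
    have e2 : ⟪ζ n, (u * cst ℤ (a (gen s)) * star u) Y⟫_ℂ = ⟪ζ n, b s Y⟫_ℂ +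
        (⟪star (j s) (ζ n), Y⟫_ℂ +
          ⟪ζ n, (u * cst ℤ (a (gen s)) * star u - (b s + j s)) Y⟫_ℂ) := by
      rw [ContinuousLinearMap.star_eq_adjoint (j s), ContinuousLinearMap.adjoint_inner_left,
        sub_apply, add_apply, inner_sub_right, inner_add_right]
      ring
    have e3 : (3 / 5 : ℝ) = ‖⟪ζ n, (u * cst ℤ (a (gen s)) * star u) Y⟫_ℂ‖ := by
      rw [e1]; simp
    rw [e3, e2]
    refine (norm_add_le _ _).trans (add_le_add le_rfl ((norm_add_le _ _).trans (add_le_add ?_ ?_)))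
    · refine (norm_inner_le_norm _ _).trans ?_
      nlinarith [norm_nonneg (star (j s) (ζ n))]
    · refine (norm_inner_le_norm _ _).trans ?_
      have c1 := (u * cst ℤ (a (gen s)) * star u - (b s + j s)).le_opNorm Y
      have c2 : ‖u * cst ℤ (a (gen s)) * star u - (b s + j s)‖ * ‖Y‖ ≤ 1 / 20 * 1 := by
        gcongr
        exact (hbj s).le
      have c3 := mul_le_mul_of_nonneg_right (hζ1 n)
        (norm_nonneg ((u * cst ℤ (a (gen s)) * star u - (b s + j s)) Y))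
      linarith
  have hlim := tendsto_finsetSum (Finset.univ : Finset σ) fun s _ =>
    (hJ0 _ (star_mem_span (fun x hx => h.star_UJ hx) (hj s))).norm
  simp only [norm_zero, Finset.sum_const_zero] at hlim
  obtain ⟨n, hn⟩ := (hlim.eventually (gt_mem_nhds (show (0 : ℝ) < 1 / 5 by norm_num))).exists
  have := Finset.sum_le_sum fun s (_ : s ∈ Finset.univ) => hlow n s
  simp only [Finset.sum_add_distrib, Finset.sum_const, Finset.card_univ, hσ, nsmul_eq_mul] at this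
  have := hkey n
  push_cast at *
  linarith

end Crest.Agent.R78.Sep
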