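import Crest.Agent.R78.PS
import Crest.Agent.R78.SepC

/-! Row 78, part S0105 (close separable C*-algebras with the same bicommutant, not unitarily
conjugate).  PLAN (complete and elementary; the owner may split the file and add files `R78/Sep*.lean`).

`G = FreeGroup (Fin 16)`, `K₀ = lp (fun _ : G => ℂ) 2`, `e x y = rankOne (single x 1) (single y 1)`,
`l g = shift (Equiv.mulLeft g⁻¹)`: `PSD e l`.  For `r ∈ [0, 3/5]`, `c = √(1 - r²)`, `Z = 1`, let `π r`
be given by `exists_ps`; `ps_lip` with `T = 1`: `sup_g ‖π r g - π r' g‖ → 0` uniformly as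
`|r - r'| → 0`; `π 0 = l`; `⟪δ₁, π r (of s) δ₁⟫ = r`.
`H = lp (fun _ : G × ℕ => K₀) 2` (`R194.shift`, `R194.diagL`; separable).  Operators on `H`:
`L g f (x, n) = f (g⁻¹ x, n)`, `ρ h f (x, n) = f (x h, n)`, `D S` = constant diagonal operator,
`a r g = L g * D (π r g) = W r * L g * (W r)*` with `W r = diagL fun (x, n) => π r x` (unitary),
`E η n η' n' f (x, m) = if m = n then ⟪η', f (x, n')⟫ • η else 0`.
`Γ r = {a r g} ∪ {L g * E η n η' n'}` is closed under products up to scalars and under `star` and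
contains `1`; `A r` = topological closure of the star subalgebra with carrier `span (Γ r)`.
(1) closed, separable (`IsSeparable.span`, continuity of `(η, η') ↦ E η n η' n'`, `K₀` separable).
(2) The centralizer of `A r` does not depend on `r`: if `T` commutes with all `E` then it commutes with
all `D S` (`E δ_y n δ_y n * D S * E δ_y' n' δ_y' n' = ⟪δ_y, S δ_y'⟫ • E δ_y n δ_y' n'`, and an operator
all of whose compressions vanish is zero), so it commutes with `a r g` iff it commutes with `L g`.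
(3) Closeness: an element of the span is `b + j`, `b = ∑ c_g a r g`, `j ∈ span {L g E}`.  `‖b‖ ≤ ‖b + j‖`:
with the isometry `V m f (x, n) = if m ≤ n then f (x, n - m) else 0` we have `j V m = 0` for large `m`
and `b V m = V m b`.  `b' = ∑ c_g a r' g = W b W*`, `W = W r' (W r)*`, `‖b - b'‖ ≤ 2 ‖W - 1‖ ‖b‖`;
then `b' + j` and a normalisation.
(4) `A (3/5)` and `A 0` are not conjugate.  Suppose `A 0 = u A (3/5) u*`.  `ξ n = single (1, n) δ₁`,
`ζ n = u (ξ n)`, `a' s = u (a (3/5) (of s)) u* ∈ A 0`, `y s = u (ρ (of s)) u*` commutes with `A 0`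
(so with all `L g`, `D S` by (2)).  `⟪ζ n, ∑ s, a' s * y s (ζ n)⟫ = 16 · 3/5 = 9.6`.
 (4a) For `x, x' ∈ A r`: `⟪ξ n, (x x' - x' x) ξ n⟫ → 0` (generators: products containing an `E` are in the
 span of the `L g E` and kill `ξ n` for large `n`; `⟪ξ n, a r g ξ n⟫ = if g = 1 then 1 else 0`; then
 bilinearity and continuity).  Hence for a unit vector `η` and `P i = E η i η i ∈ A 0`, (mutually
 orthogonal, equivalent via `E η i η i'`) `‖P i ζ n‖² - ‖P i' ζ n‖² → 0` and `∑_{i<N} ‖P i ζ n‖² ≤ 1`,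
 so `‖P i ζ n‖ → 0`, so `‖j ζ n‖ → 0` for every `j` in the span of the `L g E` (closed under `star`).
 (4b) Choose `b s + j s` in the span within `η₀` of `a' s`; `‖b s‖ ≤ 1 + η₀`;
 `9.6 ≤ limsup |⟪ζ n, ∑ b s y s ζ n⟫| + 16 η₀` (move `j s` to the left as `star (j s) (ζ n)`).
 (4c) `|⟪f', ∑ b s y s f⟫| ≤ 2 · 4 · max ‖b s‖ ‖f‖ ‖f'‖`.  Put `Θ t = L t⁻¹ * D (e 1 t)`, `t ∈ G`; it
 commutes with `y s`, `∑_t ⟪Θ t f', Θ t f⟫ = ⟪f', f⟫` (`HasSum`), `Θ t * a 0 g = Θ (g⁻¹ t)`.  For ANY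
 operator `w` and `b = ∑ c_g a 0 g` reindexing gives
 `∑_t ⟪Θ t f', w (Θ t (b f))⟫ = ∑_t ⟪Θ t (b* f'), w (Θ t f)⟫`.  Write `y s = c s + r s` with
 `c s = u ρ_s p_s u*`, `r s = u ρ_s (1 - p_s) u*`, `p_s` = multiplication by the indicator of
 `hd x⁻¹ = (s, false)`, so that `∑ ‖c s h‖² ≤ ‖h‖²` and `∑ ‖(r s)* h‖² ≤ ‖h‖²` (`hd_mul`: the ranges of
 the `ρ_s (1 - p_s)` lie in `hd x⁻¹ = (s, true)`, as `ρ_s δ_z = δ_(z s⁻¹)`).  `b s` commutes with
 `y s`, so `⟪f', b s y s f⟫ = ∑_t ⟪Θ t f', y s Θ t (b s f)⟫ =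
 ∑_t ⟪Θ t (b s* f'), c s (Θ t f)⟫ + ∑_t ⟪(r s)* Θ t f', Θ t (b s f)⟫`; Cauchy–Schwarz over `(s, t)`.
 So `9.6 ≤ 8 (1 + η₀) + 16 η₀`, false for `η₀ = 1/20`.
(5) Conjugacy is an equivalence relation; if all pairs `A r, A r'` with `|r - r'| ≤ 3/(5 N)` were
conjugate, so would be `A 0` and `A (3/5)`.

Implementation (helper29): the index set `ℕ` is replaced by `ℤ`, `H = ℓ²(ℤ; ℓ²(G; ℓ²(G)))`; steps (1)-(4) are done for an
abstract `*`-semigroup `J` in `SepB`, `SepC`. -/

set_option autoImplicit false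
set_option linter.unusedSectionVars false
set_option maxHeartbeats 400000
open scoped InnerProductSpace
open InnerProductSpace

namespace Crest.Agent.R78

namespace Sep

open Crest.Agent.R194

section Grp
variable {G : Type} [Group G] [DecidableEq G]

/-- The left regular representation with coefficients in `V`. -/
noncomputable def lamH (G V : Type) [Group G] [NormedAddCommGroup V] [InnerProductSpace ℂ V] :
    G →* (LL G V →L[ℂ] LL G V) where
  toFun g := shift (Equiv.mulLeft g⁻¹)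
  map_one' := lp2_ext fun f i => by simp
  map_mul' g h := lp2_ext fun f i => by simp

variable {V : Type} [NormedAddCommGroup V] [InnerProductSpace ℂ V] [CompleteSpace V]

@[simp] lemma lamH_apply (g : G) (f : LL G V) (x : G) : lamH G V g f x = f (g⁻¹ * x) := rfl

lemma norm_lamH (g : G) (f : LL G V) : ‖lamH G V g f‖ = ‖f‖ := norm_shift_apply _ _

lemma star_lamH (g : G) : star (lamH G V g) = lamH G V g⁻¹ := by
  refine (adjoint_shift (Equiv.mulLeft g⁻¹)).trans ?_
  exact lp2_ext fun f i => by simp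

lemma lamH_sgl (g x : G) (v : V) : lamH G V g (sgl x v) = sgl (g * x) v :=
  lp.ext (funext fun y => by
    rw [lamH_apply, sgl_apply, sgl_apply]
    simp only [inv_mul_eq_iff_eq_mul])

lemma cst_lamH (S : V →L[ℂ] V) (g : G) : cst G S * lamH G V g = lamH G V g * cst G S :=
  cst_shift _ _

/-- `λ ⊗ π`. -/
noncomputable def aH (π : G →* (V →L[ℂ] V)) : G →* (LL G V →L[ℂ] LL G V) where
  toFun g := lamH G V g * cst G (π g)
  map_one' := by simp [cst_one]
  map_mul' g h := lp2_ext fun f i => by simp [mul_assoc]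

lemma aH_def (π : G →* (V →L[ℂ] V)) (g : G) : aH π g = lamH G V g * cst G (π g) := rfl

/-- The elementary tensors of `C*_λ(G) ⊗ K(V)`. -/
def JJ (G V : Type) [Group G] [NormedAddCommGroup V] [InnerProductSpace ℂ V] :
    Set (LL G V →L[ℂ] LL G V) := {T | ∃ g η η', T = lamH G V g * cst G (rankOne ℂ η η')}

lemma mul_mem_JJ (g : G) (S : V →L[ℂ] V) {T : LL G V →L[ℂ] LL G V} (hT : T ∈ JJ G V) :
    lamH G V g * cst G S * T ∈ JJ G V := by
  obtain ⟨g', η, η', rfl⟩ := hT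
  exact ⟨g * g', S η, η', lp2_ext fun f i => by simp [mul_assoc]⟩

lemma dat_aH {π : G →* (V →L[ℂ] V)} (hπ : ∀ g, star (π g) = π g⁻¹) : Dat (JJ G V) (aH π) where
  zero := ⟨1, 0, 0, lp2_ext fun f i => by simp⟩
  mul := by
    rintro _ ⟨g, η, η', rfl⟩ T hT
    exact mul_mem_JJ _ _ hT
  star_mem := by
    rintro _ ⟨g, η, η', rfl⟩
    refine ⟨g⁻¹, η', η, ?_⟩
    rw [star_mul, star_cst, star_lamH, cst_lamH, ContinuousLinearMap.star_eq_adjoint,
      adjoint_rankOne]
  star_a g := by rw [aH_def, star_mul, star_cst, star_lamH, cst_lamH, hπ, aH_def]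
  a_mul g T hT := mul_mem_JJ _ _ hT

lemma tot_JJ {v₀ : V} (hv : ‖v₀‖ = 1) : Tot (JJ G V) := by
  intro X hX
  refine ext_sgl fun x η => ?_
  have := hX _ ⟨1, η, v₀, rfl⟩ (sgl x v₀)
  rw [map_one, one_mul, cst_sgl, rankOne_apply, inner_self_eq_norm_sq_to_K, hv] at this
  simpa using this

lemma separable_JJ [Countable G] [TopologicalSpace.SeparableSpace V] :
    TopologicalSpace.IsSeparable (JJ G V) := by
  refine (TopologicalSpace.IsSeparable.iUnion fun g : G => TopologicalSpace.isSeparable_range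
    (f := fun p : V × V => lamH G V g * cst G (rankOne ℂ p.1 p.2)) ?_).mono ?_
  · refine continuous_const.mul (continuous_cst.comp ?_)
    exact (((ContinuousLinearMap.smulRightL ℂ V V).continuous.comp
      ((innerSL ℂ).continuous.comp continuous_snd)).clm_apply continuous_fst :)
  · rintro _ ⟨g, η, η', rfl⟩
    exact Set.mem_iUnion.2 ⟨g, (η, η'), rfl⟩

lemma norm_rep_apply {π : G →* (V →L[ℂ] V)} (hπ : ∀ g, star (π g) = π g⁻¹) (g : G) (v : V) :
    ‖π g v‖ = ‖v‖ :=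
  ContinuousLinearMap.norm_map_of_mem_unitary (u := π g)
    ⟨by rw [hπ, ← map_mul, inv_mul_cancel, map_one],
      by rw [hπ, ← map_mul, mul_inv_cancel, map_one]⟩ v

lemma close_aH {π π' : G →* (V →L[ℂ] V)} (hπ : ∀ g, star (π g) = π g⁻¹)
    (hπ' : ∀ g, star (π' g) = π' g⁻¹) {δ : ℝ} (hδ0 : 0 < δ) (hδ1 : δ ≤ 1)
    (hδ : ∀ g, ‖π' g - π g‖ ≤ δ) :
    ∀ x ∈ (dat_aH hπ).alg, ‖x‖ ≤ 1 → ∃ y ∈ (dat_aH hπ').alg, ‖y‖ ≤ 1 ∧ ‖x - y‖ < 10 * δ := by
  have hn : ∀ x : G, ‖π' x * π x⁻¹‖ ≤ 1 := fun x =>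
    ContinuousLinearMap.opNorm_le_bound _ zero_le_one fun v => by
      rw [mul_apply_eq_comp, norm_rep_apply hπ', norm_rep_apply hπ, one_mul]
  have hb : BddL (A := fun _ : G => V) (B := fun _ : G => V) fun x => π' x * π x⁻¹ := ⟨1, hn⟩
  intro x hx hx1
  refine (dat_aH hπ).close (dat_aH hπ') (w := diagL fun x => π' x * π x⁻¹) ?_
    (norm_diagL_le zero_le_one hn) (fun g => ?_) hδ0 hδ1 ?_ hx hx1
  · refine lp2_ext fun f i => ?_
    rw [ContinuousLinearMap.star_eq_adjoint, adjoint_diagL hb, mul_apply_eq_comp, diagL_apply hb,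
      diagL_apply hb.adjoint, ← ContinuousLinearMap.star_eq_adjoint, star_mul, hπ, hπ',
      ← mul_apply_eq_comp, mul_assoc, ← mul_assoc (π i⁻¹), ← map_mul, mul_inv_cancel, map_one,
      one_mul, ← map_mul, mul_inv_cancel, map_one]
    rfl
  · refine lp2_ext fun f i => ?_
    simp only [aH_def, mul_apply_eq_comp, diagL_apply hb, lamH_apply, cst_apply]
    simp only [← mul_apply_eq_comp, ← map_mul, mul_inv_rev, inv_inv, ← mul_assoc]
    simp only [mul_inv_cancel, one_mul]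
  · have hd : ∀ x : G, ‖π' x * π x⁻¹ - 1‖ ≤ δ := fun x =>
      ContinuousLinearMap.opNorm_le_bound _ hδ0.le fun v => by
        have : π' x * π x⁻¹ - 1 = (π' x - π x) * π x⁻¹ := by
          rw [sub_mul, ← map_mul, mul_inv_cancel, map_one]
        rw [this, mul_apply_eq_comp]
        refine ((π' x - π x).le_opNorm _).trans ?_
        rw [norm_rep_apply hπ]
        gcongr
        exact hδ x
    have : (diagL (A := fun _ : G => V) (B := fun _ : G => V) fun x => π' x * π x⁻¹) - 1 =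
        diagL fun x => π' x * π x⁻¹ - 1 := lp2_ext fun f i => by
      rw [diagL_apply ⟨δ, hd⟩, sub_apply, lp.coeFn_sub, Pi.sub_apply, diagL_apply hb]
      rfl
    rw [this]
    exact norm_diagL_le hδ0.le hd

lemma trace_aH (π : G →* (V →L[ℂ] V)) (v : V) (g g' : G) :
    ⟪sgl (1 : G) v, aH π (g * g') (sgl (1 : G) v)⟫_ℂ =
      ⟪sgl (1 : G) v, aH π (g' * g) (sgl (1 : G) v)⟫_ℂ := by
  by_cases h : g * g' = 1
  · rw [h, mul_eq_one_comm.1 h]
  · have h' : ¬ g' * g = 1 := fun h' => h (mul_eq_one_comm.1 h')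
    simp only [aH_def, mul_apply_eq_comp, cst_sgl, lamH_sgl, inner_sgl_left, sgl_apply, mul_one]
    rw [if_neg (Ne.symm h), if_neg (Ne.symm h')]

/-- Multiplication by an indicator function. -/
noncomputable def indL (V : Type) [NormedAddCommGroup V] [InnerProductSpace ℂ V] (P : G → Prop)
    [DecidablePred P] : LL G V →L[ℂ] LL G V := diagL fun x => if P x then 1 else 0

lemma bdd_ind (P : G → Prop) [DecidablePred P] :
    BddL (A := fun _ : G => V) (B := fun _ : G => V) fun x => if P x then 1 else 0 :=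
  ⟨1, fun x => by
    dsimp only
    split_ifs
    · exact ContinuousLinearMap.norm_id_le
    · simp⟩

lemma indL_apply (P : G → Prop) [DecidablePred P] (f : LL G V) (x : G) :
    indL V P f x = if P x then f x else 0 := by
  rw [indL, diagL_apply (bdd_ind P)]
  split_ifs <;> rfl

lemma star_indL (P : G → Prop) [DecidablePred P] : star (indL V P) = indL V P := by
  refine (adjoint_diagL (bdd_ind P)).trans ?_
  unfold indL
  congr 1
  funext x
  rw [← ContinuousLinearMap.star_eq_adjoint]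
  split_ifs <;> simp

lemma sum_indL_le {σ : Type} [Fintype σ] (P : σ → G → Prop) [∀ s, DecidablePred (P s)]
    (h : ∀ x s s', P s x → P s' x → s = s') (f : LL G V) :
    ∑ s, ‖indL V (P s) f‖ ^ 2 ≤ ‖f‖ ^ 2 := by
  refine sum_diagL_le (fun s x => if P s x then 1 else 0) (fun s => bdd_ind (P s))
    (fun x v => ?_) f
  by_cases hx : ∃ s, P s x
  · obtain ⟨s, hs⟩ := hx
    rw [Finset.sum_eq_single s]
    · simp [hs]
    · intro s' _ hne
      rw [if_neg fun hs' => hne (h x s' s hs' hs)]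
      simp
    · simp
  · push Not at hx
    simp [hx]

/-- The unit vector at `x`. -/
noncomputable def dl (x : G) : LL G ℂ := sgl x 1

lemma inner_dl (x : G) (η : LL G ℂ) : ⟪dl x, η⟫_ℂ = η x := by
  rw [dl, inner_sgl_left]; simp

lemma dl_apply (x y : G) : dl x y = if y = x then 1 else 0 := sgl_apply _ _ _

lemma norm_dl (x : G) : ‖dl x‖ = 1 := by simp [dl]

/-- Matrix units. -/
noncomputable def eU (x y : G) : LL G ℂ →L[ℂ] LL G ℂ := rankOne ℂ (dl x) (dl y)

lemma eU_apply (x y : G) (η : LL G ℂ) : eU x y η = η y • dl x := by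
  rw [eU, rankOne_apply, inner_dl]

end Grp

/-- The free group on sixteen generators. -/
abbrev FG : Type := FreeGroup (Fin 16)

lemma psd : PSD (eU (G := FG)) (lamH FG ℂ) where
  mul x y z w := by
    ext1 η
    rw [mul_apply_eq_comp, eU_apply, eU_apply, lp.coeFn_smul, Pi.smul_apply, dl_apply]
    split_ifs <;> simp [eU_apply]
  star_e x y := adjoint_rankOne _ _
  star_l := star_lamH
  cov g x y := by
    ext1 η
    rw [mul_apply_eq_comp, mul_apply_eq_comp, eU_apply, eU_apply, map_smul, dl, dl, lamH_sgl]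
    simp

lemma not_conj_ps {c : ℝ} {π π₀ : FG →* (LL FG ℂ →L[ℂ] LL FG ℂ)}
    (hπ : IsPS eU (lamH FG ℂ) c (3 / 5) 1 π) (hπ₀ : IsPS eU (lamH FG ℂ) 1 0 1 π₀) :
    ¬ Conj (dat_aH hπ.star_pi).alg (dat_aH hπ₀.star_pi).alg := by
  set ρ : Fin 16 → LL FG (LL FG ℂ) →L[ℂ] LL FG (LL FG ℂ) :=
    fun s => shift (Equiv.mulRight (FreeGroup.of s)) with hρ
  have hsum : ∀ s, ρ s * indL _ (fun x => hd x⁻¹ = some (s, false)) +
      indL _ (fun z => ¬ hd (z * FreeGroup.of s)⁻¹ = some (s, false)) * ρ s = ρ s := fun s =>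
    lp2_ext fun f x => by
      simp only [hρ, add_apply, lp.coeFn_add, Pi.add_apply, mul_apply_eq_comp, shift_apply,
        indL_apply, Equiv.coe_mulRight]
      split_ifs <;> simp
  refine not_conj _ _ (tot_JJ (norm_dl 1)) (ξ := sgl 1 (dl 1)) (by rw [norm_sgl, norm_dl])
    (trace_aH π _) (Fintype.card_fin 16) FreeGroup.of
    (fun s => ρ s * indL _ (fun x => hd x⁻¹ = some (s, false)))
    (fun s => indL _ (fun z => ¬ hd (z * FreeGroup.of s)⁻¹ = some (s, false)) * ρ s)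
    (fun s => ?_) (fun s => ?_) (fun s => ?_) (fun v => ?_) (fun v => ?_)
    (fun t => lamH FG _ t⁻¹ * cst FG (eU 1 t)) (fun t => ⟨_, _, _, rfl⟩) (fun v => ?_)
    (fun t g => ?_)
  · rintro _ ⟨g, η, η', rfl⟩
    rw [hsum]
    exact lp2_ext fun f x => by simp [hρ, mul_assoc]
  · rw [hsum]
    exact norm_shift_le _
  · have hs : (FreeGroup.of s : FG) ≠ 1 := FreeGroup.of_ne_one s
    rw [hsum]
    simp only [aH_def, hρ, inner_sgl_left, mul_apply_eq_comp, lamH_apply, cst_apply, shift_apply,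
      Equiv.coe_mulRight, mul_one, inv_mul_cancel, sgl_apply, if_true]
    rw [hπ.gen, mul_apply_eq_comp, inner_dl, dl, lamH_sgl, mul_one, ← dl]
    simp [rot, eU_apply, dl_apply, hs.symm]
  · simp only [hρ, mul_apply_eq_comp, norm_shift_apply]
    exact sum_indL_le _ (fun x s s' h h' => by simpa [h] using h') v
  · simp only [hρ, star_mul, star_indL, mul_apply_eq_comp]
    simp only [ContinuousLinearMap.star_eq_adjoint, adjoint_shift, norm_shift_apply]
    refine sum_indL_le _ (fun x s s' h h' => ?_) v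
    have e := hd_mul h
    have e' := hd_mul h'
    simp only [mul_inv_rev, mul_inv_cancel_left] at e e'
    simpa [e] using e'
  · simp only [mul_apply_eq_comp, norm_lamH]
    refine hasSum_cst (fun t => eU 1 t) (fun η => ?_) v
    simp only [eU_apply, norm_smul, norm_dl, mul_one, lp2_norm_sq]
    exact (lp2_summable η).hasSum
  · refine lp2_ext fun f x => ?_
    simp [aH_def, hπ₀.eq_of_zero psd, eU_apply, mul_assoc]

lemma ps_close {r r' : ℝ} (h0 : 0 ≤ r) (h1 : r ≤ 3 / 5) (h0' : 0 ≤ r') (h1' : r' ≤ 3 / 5)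
    {π π' : FG →* (LL FG ℂ →L[ℂ] LL FG ℂ)} (hπ : IsPS eU (lamH FG ℂ) √(1 - r ^ 2) r 1 π)
    (hπ' : IsPS eU (lamH FG ℂ) √(1 - r' ^ 2) r' 1 π') (g : FG) :
    ‖π' g - π g‖ ≤ 25 * |r - r'| := by
  have h := ps_lip psd hπ hπ' (T := 1) ⟨by simp, by simp⟩ g
  have hn : ‖(1 : LL FG ℂ →L[ℂ] LL FG ℂ)‖ ≤ 1 := ContinuousLinearMap.norm_id_le
  have s1 := hπ.sq
  have s2 := hπ'.sq
  have c1 : 4 / 5 ≤ √(1 - r ^ 2) := Real.le_sqrt_of_sq_le (by nlinarith)
  have c2 : 4 / 5 ≤ √(1 - r' ^ 2) := Real.le_sqrt_of_sq_le (by nlinarith)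
  generalize √(1 - r ^ 2) = c at *
  generalize √(1 - r' ^ 2) = c' at *
  have c3 : |c - c'| ≤ |r - r'| := by
    have e : |c - c'| * (c + c') = |r - r'| * (r + r') := by
      rw [← abs_of_nonneg (by linarith : 0 ≤ c + c'), ← abs_of_nonneg (by linarith : 0 ≤ r + r'),
        ← abs_mul, ← abs_mul, ← abs_neg]
      congr 1
      linarith
    nlinarith [abs_nonneg (c - c'), abs_nonneg (r - r')]
  simp only [mul_one, one_mul, sub_self, norm_zero, zero_add] at h
  have c4 : (|r - r'| + |c - c'|) * ‖(1 : LL FG ℂ →L[ℂ] LL FG ℂ)‖ ≤ (|r - r'| + |r - r'|) * 1 := by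
    gcongr
  have c5 : 2 / 5 * (4 / 5) * ‖π' g - π g‖ ≤ (1 - r') * c' * ‖π' g - π g‖ := by
    gcongr <;> linarith
  linarith

end Sep

open _root_.Crest.Agent.R78.Sep Crest.Agent.R194 in
theorem s0105 (ε : ℝ) (hε : 0 < ε) :
    ∃ (H : Type) (_ : NormedAddCommGroup H) (_ : InnerProductSpace ℂ H) (_ : CompleteSpace H)
      (_ : TopologicalSpace.SeparableSpace H) (A B : StarSubalgebra ℂ (H →L[ℂ] H)),
      IsClosed (A : Set (H →L[ℂ] H)) ∧ IsClosed (B : Set (H →L[ℂ] H)) ∧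
      TopologicalSpace.IsSeparable (A : Set (H →L[ℂ] H)) ∧
      TopologicalSpace.IsSeparable (B : Set (H →L[ℂ] H)) ∧
      (∀ a ∈ A, ‖a‖ ≤ 1 → ∃ b ∈ B, ‖b‖ ≤ 1 ∧ ‖a - b‖ < ε) ∧
      (∀ b ∈ B, ‖b‖ ≤ 1 → ∃ a ∈ A, ‖a‖ ≤ 1 ∧ ‖b - a‖ < ε) ∧
      Set.centralizer (Set.centralizer (A : Set (H →L[ℂ] H))) =
        Set.centralizer (Set.centralizer (B : Set (H →L[ℂ] H))) ∧
      ¬ ∃ u : H →L[ℂ] H, u ∈ unitary (H →L[ℂ] H) ∧
          ∀ y : H →L[ℂ] H, y ∈ B ↔ ∃ x ∈ A, y = u * x * star u := by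
  obtain ⟨N, hN⟩ := exists_nat_gt (max 25 (250 / ε))
  have hN1 : (25 : ℝ) < N := (le_max_left _ _).trans_lt hN
  have hN2 : 250 / ε < N := (le_max_right _ _).trans_lt hN
  have hN0 : (0 : ℝ) < N := by linarith
  set R : ℕ → ℝ := fun i => 3 / 5 * (((min i N : ℕ) : ℝ) / N) with hR
  have R0 : ∀ i, 0 ≤ R i := fun i => by positivity
  have R1 : ∀ i, R i ≤ 3 / 5 := fun i => by
    have : ((min i N : ℕ) : ℝ) / N ≤ 1 := by
      rw [div_le_one hN0]; exact_mod_cast min_le_right _ _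
    simp only [hR]
    linarith
  have R2 : ∀ i, |R (i + 1) - R i| ≤ 1 / N := fun i => by
    have e1 : ((min i N : ℕ) : ℝ) ≤ (min (i + 1) N : ℕ) := by exact_mod_cast (by omega)
    have e2 : ((min (i + 1) N : ℕ) : ℝ) ≤ (min i N : ℕ) + 1 := by exact_mod_cast (by omega)
    simp only [hR]
    rw [← mul_sub, ← sub_div, abs_of_nonneg (by positivity), ← mul_div_assoc]
    gcongr
    linarith
  have hex : ∀ i, ∃ π, IsPS eU (lamH FG ℂ) √(1 - R i ^ 2) (R i) 1 π := fun i =>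
    exists_ps psd (Real.sqrt_nonneg _) (R0 i) (by
      rw [Real.sq_sqrt (by nlinarith [R0 i, R1 i])]; ring) (one_mem _) ⟨by simp, by simp⟩
  choose π hπ using hex
  have hi : ∃ i, ¬ Conj (dat_aH (hπ (i + 1)).star_pi).alg (dat_aH (hπ i).star_pi).alg := by
    by_contra hc
    push Not at hc
    have hall : ∀ i, Conj (dat_aH (hπ i).star_pi).alg (dat_aH (hπ 0).star_pi).alg := by
      intro i
      induction i with
      | zero => exact Conj.refl _
      | succ i ih => exact (hc i).trans ih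
    have e1 : R N = 3 / 5 := by simp [hR, hN0.ne']
    have e0 : R 0 = 0 := by simp [hR]
    refine not_conj_ps (c := √(1 - (3 / 5) ^ 2)) (π := π N) (π₀ := π 0) (e1 ▸ hπ N) ?_ (hall N)
    simpa [e0] using hπ 0
  obtain ⟨i, hi⟩ := hi
  have : TopologicalSpace.SeparableSpace (LL FG ℂ) := separable_lp2
  have : TopologicalSpace.SeparableSpace (LL FG (LL FG ℂ)) := separable_lp2
  have hδ0 : (0 : ℝ) < 25 / N := by positivity
  have hδ1 : (25 : ℝ) / N ≤ 1 := by rw [div_le_one hN0]; exact hN1.le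
  have hδε : 10 * ((25 : ℝ) / N) < ε := by
    rw [div_lt_iff₀ hε] at hN2
    rw [← mul_div_assoc, div_lt_iff₀ hN0]
    linarith
  refine ⟨LL ℤ (LL FG (LL FG ℂ)), inferInstance, inferInstance, inferInstance, separable_lp2,
    (dat_aH (hπ (i + 1)).star_pi).alg, (dat_aH (hπ i).star_pi).alg,
    StarSubalgebra.isClosed_topologicalClosure _, StarSubalgebra.isClosed_topologicalClosure _,
    Dat.separable _ separable_JJ, Dat.separable _ separable_JJ, fun x hx hx1 => ?_,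
    fun x hx hx1 => ?_, ?_, hi⟩
  · obtain ⟨y, hy, hy1, hxy⟩ := close_aH (hπ (i + 1)).star_pi (hπ i).star_pi hδ0 hδ1 (fun g =>
      (ps_close (R0 _) (R1 _) (R0 _) (R1 _) (hπ (i + 1)) (hπ i) g).trans (by
        have := R2 i
        rw [div_eq_mul_one_div]
        linarith)) x hx hx1
    exact ⟨y, hy, hy1, hxy.trans hδε⟩
  · obtain ⟨y, hy, hy1, hxy⟩ := close_aH (hπ i).star_pi (hπ (i + 1)).star_pi hδ0 hδ1 (fun g =>
      (ps_close (R0 _) (R1 _) (R0 _) (R1 _) (hπ i) (hπ (i + 1)) g).trans (by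
        have := R2 i
        rw [div_eq_mul_one_div, abs_sub_comm]
        linarith)) x hx hx1
    exact ⟨y, hy, hy1, hxy.trans hδε⟩
  · rw [Dat.centralizer _ (tot_JJ (norm_dl 1)), Dat.centralizer _ (tot_JJ (norm_dl 1))]

end Crest.Agent.R78
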