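import Crest.Agent.R194.NotSim

/-! Row 78, S0105: constant diagonal operators and matrix units on `ℓ²(ι; K)`. -/

set_option autoImplicit false
set_option linter.unusedSectionVars false
set_option maxHeartbeats 400000
open scoped InnerProductSpace ENNReal
open Filter Topology

namespace Crest.Agent.R78.Sep

open Crest.Agent.R194

/-- `ℓ²(ι; K)`. -/
abbrev LL (ι K : Type) [NormedAddCommGroup K] : Type := lp (fun _ : ι => K) 2

variable {ι K : Type} [NormedAddCommGroup K] [InnerProductSpace ℂ K] [CompleteSpace K]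

lemma bdd_const (S : K →L[ℂ] K) : BddL (A := fun _ : ι => K) (B := fun _ : ι => K) fun _ => S :=
  ⟨‖S‖, fun _ => le_rfl⟩

/-- The constant diagonal operator. -/
noncomputable def cst (ι : Type) (S : K →L[ℂ] K) : LL ι K →L[ℂ] LL ι K := diagL fun _ => S

@[simp] lemma cst_apply (S : K →L[ℂ] K) (f : LL ι K) (i : ι) : cst ι S f i = S (f i) :=
  diagL_apply (bdd_const S) f i

lemma cst_mul (S T : K →L[ℂ] K) : cst ι (S * T) = cst ι S * cst ι T :=
  lp2_ext fun f i => by simp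

lemma cst_one : cst ι (1 : K →L[ℂ] K) = 1 := lp2_ext fun f i => by simp

lemma cst_add (S T : K →L[ℂ] K) : cst ι (S + T) = cst ι S + cst ι T :=
  lp2_ext fun f i => by simp

lemma cst_sub (S T : K →L[ℂ] K) : cst ι (S - T) = cst ι S - cst ι T :=
  lp2_ext fun f i => by simp

lemma star_cst (S : K →L[ℂ] K) : star (cst ι S) = cst ι (star S) :=
  adjoint_diagL (bdd_const S)

lemma norm_cst_le (S : K →L[ℂ] K) : ‖cst ι S‖ ≤ ‖S‖ :=
  norm_diagL_le (norm_nonneg _) fun _ => le_rfl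

lemma continuous_cst : Continuous (cst ι : (K →L[ℂ] K) → _) := by
  refine (LipschitzWith.of_dist_le_mul (K := 1) fun S T => ?_).continuous
  rw [dist_eq_norm, dist_eq_norm, ← cst_sub]
  simpa using norm_cst_le _

lemma cst_shift (S : K →L[ℂ] K) (e : ι ≃ ι) : cst ι S * shift e = shift e * cst ι S :=
  lp2_ext fun f i => by simp

lemma hasSum_cst {τ : Type} (T : τ → K →L[ℂ] K)
    (h : ∀ v, HasSum (fun t => ‖T t v‖ ^ 2) (‖v‖ ^ 2)) (f : LL ι K) :
    HasSum (fun t => ‖cst ι (T t) f‖ ^ 2) (‖f‖ ^ 2) := by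
  have h1 : Summable fun p : ι × τ => ‖T p.2 (f p.1)‖ ^ 2 := by
    rw [summable_prod_of_nonneg fun _ => by positivity]
    refine ⟨fun i => (h (f i)).summable, ?_⟩
    simp only [(h _).tsum_eq]
    exact lp2_summable f
  have h2 : HasSum (fun p : ι × τ => ‖T p.2 (f p.1)‖ ^ 2) (‖f‖ ^ 2) := by
    convert h1.hasSum
    rw [h1.tsum_prod, lp2_norm_sq]
    simp only [(h _).tsum_eq]
  have h3 : HasSum (fun p : τ × ι => ‖T p.1 (f p.2)‖ ^ 2) (‖f‖ ^ 2) :=
    (Equiv.prodComm ι τ).hasSum_iff.1 h2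
  refine h3.prod_fiberwise fun t => ?_
  rw [lp2_norm_sq]
  simpa using (lp2_summable (cst ι (T t) f)).hasSum

lemma sum_diagL_le {σ : Type} [Fintype σ] (T : σ → ι → K →L[ℂ] K)
    (hb : ∀ s, BddL (A := fun _ : ι => K) (B := fun _ : ι => K) (T s))
    (h : ∀ i v, ∑ s, ‖T s i v‖ ^ 2 ≤ ‖v‖ ^ 2) (f : LL ι K) :
    ∑ s, ‖diagL (A := fun _ : ι => K) (B := fun _ : ι => K) (T s) f‖ ^ 2 ≤ ‖f‖ ^ 2 := by
  simp only [lp2_norm_sq]
  rw [← Summable.tsum_finsetSum fun s _ => lp2_summable _]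
  refine Summable.tsum_le_tsum (fun i => ?_) (summable_sum fun s _ => lp2_summable _)
    (lp2_summable f)
  simp only [diagL_apply (hb _)]
  exact h i _

lemma sum_cst_le {σ : Type} [Fintype σ] (T : σ → K →L[ℂ] K)
    (h : ∀ v, ∑ s, ‖T s v‖ ^ 2 ≤ ‖v‖ ^ 2) (f : LL ι K) : ∑ s, ‖cst ι (T s) f‖ ^ 2 ≤ ‖f‖ ^ 2 :=
  sum_diagL_le (fun s _ => T s) (fun _ => bdd_const _) (fun _ v => h v) f

/-- The isometry attached to a Parseval family. -/
noncomputable def iso {τ : Type} (T : τ → K →L[ℂ] K)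
    (h : ∀ v, HasSum (fun t => ‖T t v‖ ^ 2) (‖v‖ ^ 2)) : K →ₗᵢ[ℂ] LL τ K where
  toFun v := ⟨fun t => T t v, memℓp2_of_summable (h v).summable⟩
  map_add' v w := lp.ext (funext fun t => map_add (T t) v w)
  map_smul' c v := lp.ext (funext fun t => map_smul (T t) c v)
  norm_map' v := by
    refine (sq_eq_sq₀ (by positivity) (by positivity)).mp ?_
    rw [lp2_norm_sq]
    exact (h v).tsum_eq

@[simp] lemma iso_apply {τ : Type} (T : τ → K →L[ℂ] K)
    (h : ∀ v, HasSum (fun t => ‖T t v‖ ^ 2) (‖v‖ ^ 2)) (v : K) (t : τ) : iso T h v t = T t v := rfl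

lemma tendsto_coord (f : LL ι K) : Tendsto (fun i => f i) cofinite (𝓝 0) := by
  rw [tendsto_zero_iff_norm_tendsto_zero]
  have := (lp2_summable f).tendsto_cofinite_zero.sqrt
  simpa using this

variable [DecidableEq ι]

/-- The vector `v` placed at `i`. -/
noncomputable def sgl (i : ι) : K →L[ℂ] LL ι K :=
  lp.singleContinuousLinearMap ℂ (fun _ : ι => K) 2 i

lemma sgl_apply (i j : ι) (v : K) : sgl i v j = if j = i then v else 0 := by
  change lp.single (E := fun _ : ι => K) 2 i v j = _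
  split_ifs with h
  · subst h; rw [lp.single_apply_self]
  · rw [lp.single_apply_ne _ _ _ h]

@[simp] lemma norm_sgl (i : ι) (v : K) : ‖sgl i v‖ = ‖v‖ :=
  lp.norm_single (E := fun _ : ι => K) (by norm_num) i v

lemma inner_sgl_left (i : ι) (v : K) (f : LL ι K) : ⟪sgl i v, f⟫_ℂ = ⟪v, f i⟫_ℂ :=
  lp.inner_single_left i v f

lemma inner_sgl_right (i : ι) (v : K) (f : LL ι K) : ⟪f, sgl i v⟫_ℂ = ⟪f i, v⟫_ℂ :=
  lp.inner_single_right i v f

lemma ext_sgl {F : Type*} [NormedAddCommGroup F] [NormedSpace ℂ F] {X Y : LL ι K →L[ℂ] F}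
    (h : ∀ i v, X (sgl i v) = Y (sgl i v)) : X = Y :=
  lp.ext_continuousLinearMap (by norm_num) fun i => ContinuousLinearMap.ext fun v => h i v

lemma cst_sgl (S : K →L[ℂ] K) (i : ι) (v : K) : cst ι S (sgl i v) = sgl i (S v) :=
  lp.ext (funext fun j => by
    rw [cst_apply, sgl_apply, sgl_apply]
    split_ifs <;> simp)

/-- The operator `e_{ij} ⊗ T`. -/
noncomputable def un (i j : ι) (T : K →L[ℂ] K) : LL ι K →L[ℂ] LL ι K :=
  sgl i ∘L T ∘L lp.evalCLM ℂ (fun _ : ι => K) 2 j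

lemma un_apply (i j : ι) (T : K →L[ℂ] K) (f : LL ι K) : un i j T f = sgl i (T (f j)) := rfl

lemma un_zero (i j : ι) : un i j (0 : K →L[ℂ] K) = 0 := by simp [un]

lemma un_mul_un (i j k l : ι) (S T : K →L[ℂ] K) :
    un i j S * un k l T = un i l (if j = k then S * T else 0) := by
  ext1 f
  rw [mul_apply_eq_comp, un_apply, un_apply, un_apply, sgl_apply]
  split_ifs <;> simp

lemma cst_mul_un (i j : ι) (S T : K →L[ℂ] K) : cst ι S * un i j T = un i j (S * T) := by
  ext1 f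
  rw [mul_apply_eq_comp, un_apply, un_apply, cst_sgl]
  rfl

lemma un_mul_cst (i j : ι) (S T : K →L[ℂ] K) : un i j T * cst ι S = un i j (T * S) := by
  ext1 f
  rw [mul_apply_eq_comp, un_apply, un_apply, cst_apply]
  rfl

lemma star_un (i j : ι) (T : K →L[ℂ] K) : star (un i j T) = un j i (star T) := by
  symm
  rw [ContinuousLinearMap.star_eq_adjoint, ContinuousLinearMap.star_eq_adjoint,
    ContinuousLinearMap.eq_adjoint_iff]
  intro x y
  rw [un_apply, un_apply, inner_sgl_left, inner_sgl_right, ContinuousLinearMap.adjoint_inner_left]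

lemma continuous_un (i j : ι) : Continuous (un i j : (K →L[ℂ] K) → _) := by
  unfold un
  fun_prop

lemma sum_coord_le (s : Finset ι) (f : LL ι K) : ∑ i ∈ s, ‖f i‖ ^ 2 ≤ ‖f‖ ^ 2 := by
  rw [lp2_norm_sq]
  exact (lp2_summable f).sum_le_tsum s fun _ _ => by positivity

end Crest.Agent.R78.Sep
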