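import Crest.Agent.R78.SepA

/-! Row 78, S0105: the algebras `C*(a(G) ⊗ 1) + J ⊗ K` in an abstract setting. -/

set_option autoImplicit false
set_option linter.unusedSectionVars false
set_option maxHeartbeats 400000
open scoped InnerProductSpace ENNReal
open Filter Topology

namespace Crest.Agent.R78.Sep

open Crest.Agent.R194

variable {G K : Type} [Group G] [NormedAddCommGroup K] [InnerProductSpace ℂ K] [CompleteSpace K]

/-- The bounded operators on `ℓ²(ℤ; K)`. -/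
abbrev BB (K : Type) [NormedAddCommGroup K] [InnerProductSpace ℂ K] : Type :=
  LL ℤ K →L[ℂ] LL ℤ K

/-- A `*`-semigroup `J` and a unitary representation multiplying it. -/
structure Dat (J : Set (K →L[ℂ] K)) (a : G →* (K →L[ℂ] K)) : Prop where
  zero : (0 : K →L[ℂ] K) ∈ J
  mul : ∀ S ∈ J, ∀ T ∈ J, S * T ∈ J
  star_mem : ∀ T ∈ J, star T ∈ J
  star_a : ∀ g, star (a g) = a g⁻¹
  a_mul : ∀ g, ∀ T ∈ J, a g * T ∈ J

/-- The generators of the first kind. -/
def UA (a : G →* (K →L[ℂ] K)) : Set (BB K) := Set.range fun g => cst ℤ (a g)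

/-- The generators of the second kind. -/
def UJ (J : Set (K →L[ℂ] K)) : Set (BB K) := {x | ∃ i j : ℤ, ∃ T ∈ J, x = un i j T}

variable {J : Set (K →L[ℂ] K)} {a a' : G →* (K →L[ℂ] K)}

lemma Dat.mul_a (h : Dat J a) (g : G) {T : K →L[ℂ] K} (hT : T ∈ J) : T * a g ∈ J := by
  have := h.star_mem _ (h.a_mul g⁻¹ _ (h.star_mem T hT))
  rwa [star_mul, star_star, h.star_a, inv_inv] at this

lemma Dat.star_UJ (h : Dat J a) {x : BB K} (hx : x ∈ UJ J) : star x ∈ UJ J := by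
  obtain ⟨i, j, T, hT, rfl⟩ := hx
  exact ⟨j, i, _, h.star_mem T hT, star_un i j T⟩

lemma Dat.star_UA (h : Dat J a) {x : BB K} (hx : x ∈ UA a) : star x ∈ UA a := by
  obtain ⟨g, rfl⟩ := hx
  exact ⟨g⁻¹, by simp only [star_cst, h.star_a]⟩

lemma Dat.mul_UJ (h : Dat J a) {x y : BB K} (hx : x ∈ UA a ∪ UJ J) (hy : y ∈ UJ J) :
    x * y ∈ UJ J := by
  obtain ⟨k, l, T, hT, rfl⟩ := hy
  rcases hx with ⟨g, rfl⟩ | ⟨i, j, S, hS, rfl⟩
  · exact ⟨k, l, _, h.a_mul g T hT, cst_mul_un _ _ _ _⟩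
  · refine ⟨i, l, _, ?_, un_mul_un _ _ _ _ _ _⟩
    split_ifs
    exacts [h.mul S hS T hT, h.zero]

lemma Dat.UJ_mul (h : Dat J a) {x y : BB K} (hx : x ∈ UJ J) (hy : y ∈ UA a ∪ UJ J) :
    x * y ∈ UJ J := by
  rcases hy with ⟨g, rfl⟩ | hy
  · obtain ⟨k, l, T, hT, rfl⟩ := hx
    exact ⟨k, l, _, h.mul_a g hT, un_mul_cst _ _ _ _⟩
  · exact h.mul_UJ (Or.inr hx) hy

lemma Dat.mul_gen (h : Dat J a) {x y : BB K} (hx : x ∈ UA a ∪ UJ J) (hy : y ∈ UA a ∪ UJ J) :
    x * y ∈ UA a ∪ UJ J := by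
  rcases hy with hy | hy
  · rcases hx with ⟨g, rfl⟩ | hx
    · obtain ⟨g', rfl⟩ := hy
      exact Or.inl ⟨g * g', by simp only [map_mul, cst_mul]⟩
    · exact Or.inr (h.UJ_mul hx (Or.inl hy))
  · exact Or.inr (h.mul_UJ hx hy)

lemma star_mem_span {S : Set (BB K)} (hS : ∀ x ∈ S, star x ∈ S) {x : BB K}
    (hx : x ∈ Submodule.span ℂ S) : star x ∈ Submodule.span ℂ S := by
  induction hx using Submodule.span_induction with
  | mem x hx => exact Submodule.subset_span (hS x hx)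
  | zero => simp
  | add x y _ _ hx hy => rw [star_add]; exact add_mem hx hy
  | smul c x _ hx => rw [star_smul]; exact Submodule.smul_mem _ _ hx

/-- The span of the generators. -/
noncomputable def Dat.alg0 (h : Dat J a) : StarSubalgebra ℂ (BB K) where
  carrier := Submodule.span ℂ (UA a ∪ UJ J)
  mul_mem' {x y} hx hy := by
    have := Submodule.mul_mem_mul hx hy
    rw [Submodule.span_mul_span] at this
    refine Submodule.span_mono ?_ this
    rintro _ ⟨x, hx, y, hy, rfl⟩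
    exact h.mul_gen hx hy
  add_mem' hx hy := add_mem hx hy
  algebraMap_mem' c := by
    rw [Algebra.algebraMap_eq_smul_one]
    exact Submodule.smul_mem _ _ (Submodule.subset_span (Or.inl ⟨1, by simp [cst_one]⟩))
  star_mem' hx := star_mem_span (fun x hx => hx.imp h.star_UA h.star_UJ) hx

/-- The C*-algebra generated by the data. -/
noncomputable def Dat.alg (h : Dat J a) : StarSubalgebra ℂ (BB K) := h.alg0.topologicalClosure

lemma Dat.mem_alg (h : Dat J a) {x : BB K} :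
    x ∈ h.alg ↔ x ∈ closure (Submodule.span ℂ (UA a ∪ UJ J) : Set (BB K)) := Iff.rfl

lemma Dat.gen_mem (h : Dat J a) {x : BB K} (hx : x ∈ UA a ∪ UJ J) : x ∈ h.alg :=
  subset_closure (Submodule.subset_span hx)

lemma Dat.approx (h : Dat J a) {x : BB K} (hx : x ∈ h.alg) {η : ℝ} (hη : 0 < η) :
    ∃ b ∈ Submodule.span ℂ (UA a), ∃ j ∈ Submodule.span ℂ (UJ J), ‖x - (b + j)‖ < η := by
  obtain ⟨y, hy, hxy⟩ := Metric.mem_closure_iff.1 (h.mem_alg.1 hx) η hη
  rw [Submodule.span_union] at hy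
  obtain ⟨b, hb, j, hj, rfl⟩ := Submodule.mem_sup.1 hy
  exact ⟨b, hb, j, hj, by rwa [← dist_eq_norm]⟩

lemma Dat.add_mem_alg (h : Dat J a) {b j : BB K} (hb : b ∈ Submodule.span ℂ (UA a))
    (hj : j ∈ Submodule.span ℂ (UJ J)) : b + j ∈ h.alg :=
  subset_closure (add_mem (Submodule.span_mono Set.subset_union_left hb)
    (Submodule.span_mono Set.subset_union_right hj))

lemma Dat.separable [Countable G] (h : Dat J a) (hJ : TopologicalSpace.IsSeparable J) :
    TopologicalSpace.IsSeparable (h.alg : Set (BB K)) := by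
  have h1 : TopologicalSpace.IsSeparable (UA a ∪ UJ J) := by
    refine (Set.countable_range _).isSeparable.union ?_
    refine (TopologicalSpace.IsSeparable.iUnion fun p : ℤ × ℤ =>
      hJ.image (continuous_un p.1 p.2)).mono ?_
    rintro _ ⟨i, j, T, hT, rfl⟩
    exact Set.mem_iUnion.2 ⟨(i, j), T, hT, rfl⟩
  exact (h1.span (R := ℂ)).closure

lemma span_UJ_tendsto {f : ℕ → LL ℤ K}
    (hf : ∀ T ∈ J, ∀ j, Tendsto (fun n => T (f n j)) atTop (𝓝 0)) {z : BB K}
    (hz : z ∈ Submodule.span ℂ (UJ J)) : Tendsto (fun n => z (f n)) atTop (𝓝 0) := by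
  induction hz using Submodule.span_induction with
  | mem x hx =>
    obtain ⟨i, j, T, hT, rfl⟩ := hx
    simpa only [un_apply, map_zero, Function.comp_def] using
      ((sgl i).continuous.tendsto 0).comp (hf T hT j)
  | zero => simp
  | add x y _ _ hx hy => simpa using hx.add hy
  | smul c x _ hx => simpa using hx.const_smul c

lemma norm_le_add {b j : BB K} (hb : b ∈ Submodule.span ℂ (UA a))
    (hj : j ∈ Submodule.span ℂ (UJ J)) : ‖b‖ ≤ ‖b + j‖ := by
  have hcomm : ∀ e : ℤ ≃ ℤ, b * shift e = shift e * b := by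
    intro e
    induction hb using Submodule.span_induction with
    | mem x hx => obtain ⟨g, rfl⟩ := hx; exact cst_shift _ _
    | zero => simp
    | add x y _ _ hx hy => rw [add_mul, mul_add, hx, hy]
    | smul c x _ hx => rw [smul_mul_assoc, mul_smul_comm, hx]
  refine ContinuousLinearMap.opNorm_le_bound _ (norm_nonneg _) fun f => ?_
  have h1 : Tendsto (fun n : ℕ => j (shift (Equiv.addRight (n : ℤ)) f)) atTop (𝓝 0) := by
    refine span_UJ_tendsto (fun T _ i => ?_) hj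
    have : Tendsto (fun n : ℕ => i + (n : ℤ)) atTop cofinite := by
      rw [← Nat.cofinite_eq_atTop]
      exact Function.Injective.tendsto_cofinite fun n m h => by simpa using h
    simpa only [map_zero, Function.comp_def, shift_apply, Equiv.coe_addRight] using
      (T.continuous.tendsto 0).comp ((tendsto_coord f).comp this)
  have h2 : Tendsto (fun n : ℕ => ‖b + j‖ * ‖f‖ + ‖j (shift (Equiv.addRight (n : ℤ)) f)‖) atTop
      (𝓝 (‖b + j‖ * ‖f‖)) := by
    simpa using h1.norm.const_add (‖b + j‖ * ‖f‖)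
  refine ge_of_tendsto' h2 fun n => ?_
  set g := shift (Equiv.addRight (n : ℤ)) f with hg
  have e1 : ‖b f‖ = ‖b g‖ := by
    rw [hg, ← mul_apply_eq_comp, hcomm, mul_apply_eq_comp, norm_shift_apply]
  have e2 : b g = (b + j) g - j g := by simp
  rw [e1, e2]
  refine (norm_sub_le _ _).trans ?_
  have := (b + j).le_opNorm g
  rw [hg, norm_shift_apply] at this
  linarith

lemma Dat.close (h : Dat J a) (h' : Dat J a') {w : K →L[ℂ] K} (hw1 : w * star w = 1)
    (hw2 : ‖w‖ ≤ 1) (hwa : ∀ g, w * a g = a' g * w) {δ : ℝ} (hδ0 : 0 < δ) (hδ1 : δ ≤ 1)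
    (hδ : ‖w - 1‖ ≤ δ) {x : BB K} (hx : x ∈ h.alg) (hx1 : ‖x‖ ≤ 1) :
    ∃ y ∈ h'.alg, ‖y‖ ≤ 1 ∧ ‖x - y‖ < 10 * δ := by
  obtain ⟨b, hb, j, hj, hxb⟩ := h.approx hx hδ0
  set W := cst ℤ w with hW
  have hb' : W * b * star W ∈ Submodule.span ℂ (UA a') := by
    clear hxb
    induction hb using Submodule.span_induction with
    | mem x hx =>
      obtain ⟨g, rfl⟩ := hx
      refine Submodule.subset_span ⟨g, ?_⟩
      simp only [hW, star_cst, ← cst_mul, hwa, mul_assoc, hw1, mul_one]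
    | zero => simp
    | add x y _ _ hx hy => rw [mul_add, add_mul]; exact add_mem hx hy
    | smul c x _ hx => rw [mul_smul_comm, smul_mul_assoc]; exact Submodule.smul_mem _ _ hx
  have n1 : ‖b + j‖ ≤ 1 + δ := by
    have : b + j = x - (x - (b + j)) := by abel
    rw [this]
    exact (norm_sub_le _ _).trans (by linarith)
  have n2 : ‖b‖ ≤ 2 := (norm_le_add hb hj).trans (by linarith)
  have n3 : ‖W - 1‖ ≤ δ := by
    rw [hW, ← cst_one, ← cst_sub]; exact (norm_cst_le _).trans hδ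
  have n4 : ‖star W - 1‖ ≤ δ := by
    rw [← star_one (BB K), ← star_sub, norm_star]; exact n3
  have n5 : ‖W‖ ≤ 1 := (norm_cst_le _).trans hw2
  have n6 : ‖W * b * star W - b‖ ≤ 4 * δ := by
    have : W * b * star W - b = W * (b * (star W - 1)) + (W - 1) * b := by noncomm_ring
    rw [this]
    refine (norm_add_le _ _).trans ?_
    have c1 := norm_mul_le W (b * (star W - 1))
    have c2 := norm_mul_le b (star W - 1)
    have c3 := norm_mul_le (W - 1) b
    have c4 : ‖b‖ * ‖star W - 1‖ ≤ 2 * δ := by gcongr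
    have c5 : ‖W - 1‖ * ‖b‖ ≤ δ * 2 := by gcongr
    have c6 : ‖W‖ * ‖b * (star W - 1)‖ ≤ 1 * (2 * δ) := by gcongr; linarith
    linarith
  set y₀ := W * b * star W + j with hy₀
  have n7 : ‖x - y₀‖ < 5 * δ := by
    have : x - y₀ = (x - (b + j)) - (W * b * star W - b) := by rw [hy₀]; abel
    rw [this]
    exact (norm_sub_le _ _).trans_lt (by linarith)
  have n8 : ‖y₀‖ ≤ 1 + 5 * δ := by
    have : y₀ = x - (x - y₀) := by abel
    rw [this]
    exact (norm_sub_le _ _).trans (by linarith)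
  have hp : 0 < 1 + 5 * δ := by linarith
  refine ⟨(((1 + 5 * δ)⁻¹ : ℝ) : ℂ) • y₀, SMulMemClass.smul_mem _ (h'.add_mem_alg hb' hj), ?_, ?_⟩
  · rw [norm_smul, Complex.norm_real, Real.norm_of_nonneg (by positivity), inv_mul_le_iff₀ hp]
    linarith
  · have : x - (((1 + 5 * δ)⁻¹ : ℝ) : ℂ) • y₀ =
        (x - y₀) + ((5 * δ * (1 + 5 * δ)⁻¹ : ℝ) : ℂ) • y₀ := by
      have e : 5 * δ * (1 + 5 * δ)⁻¹ = 1 - (1 + 5 * δ)⁻¹ := by field_simp; ring
      rw [e, Complex.ofReal_sub, sub_smul, Complex.ofReal_one, one_smul]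
      abel
    rw [this]
    refine (norm_add_le _ _).trans_lt ?_
    rw [norm_smul, Complex.norm_real, Real.norm_of_nonneg (by positivity)]
    have : 5 * δ * (1 + 5 * δ)⁻¹ * ‖y₀‖ ≤ 5 * δ * (1 + 5 * δ)⁻¹ * (1 + 5 * δ) := by gcongr
    rw [mul_assoc (5 * δ), mul_assoc (5 * δ), inv_mul_cancel₀ hp.ne'] at this
    rw [mul_assoc (5 * δ)]
    linarith

/-- The ranges of the members of `J` span a dense subspace. -/
def Tot (J : Set (K →L[ℂ] K)) : Prop :=
  ∀ X : K →L[ℂ] LL ℤ K, (∀ T ∈ J, ∀ v, X (T v) = 0) → X = 0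

lemma comm_cst (tot : Tot J) {Y : BB K} (hY : ∀ x ∈ UJ J, x * Y = Y * x) {d : K →L[ℂ] K}
    (hd : ∀ T ∈ J, d * T ∈ J) : cst ℤ d * Y = Y * cst ℤ d := by
  rw [← sub_eq_zero]
  refine ext_sgl fun i v => ?_
  have := tot ((cst ℤ d * Y - Y * cst ℤ d) ∘L sgl i) fun T hT v => by
    have e : (cst ℤ d * Y - Y * cst ℤ d) * un i i T = 0 := by
      rw [sub_mul, mul_assoc, mul_assoc, ← hY _ ⟨i, i, T, hT, rfl⟩, ← mul_assoc, cst_mul_un,
        hY _ ⟨i, i, _, hd T hT, rfl⟩, sub_self]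
    have := congrArg (fun Z : BB K => Z (sgl i v)) e
    simp only [mul_apply_eq_comp, un_apply, sgl_apply, if_true] at this
    exact this
  exact congrArg (fun Z : K →L[ℂ] LL ℤ K => Z v) this

lemma Dat.centralizer (h : Dat J a) (tot : Tot J) :
    Set.centralizer (h.alg : Set (BB K)) = Set.centralizer (UJ J) := by
  refine le_antisymm (Set.centralizer_subset fun x hx => h.gen_mem (Or.inr hx)) fun Y hY x hx => ?_
  have hcl : IsClosed {x : BB K | x * Y = Y * x} :=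
    isClosed_eq (continuous_id.mul continuous_const) (continuous_const.mul continuous_id)
  refine hcl.closure_subset_iff.2 (fun x hx => ?_) (h.mem_alg.1 hx)
  induction hx using Submodule.span_induction with
  | mem x hx =>
    rcases hx with ⟨g, rfl⟩ | hx
    · exact comm_cst tot hY (h.a_mul g)
    · exact hY x hx
  | zero => simp
  | add x y _ _ hx hy =>
    simp only [Set.mem_ofPred_eq] at hx hy ⊢
    rw [add_mul, mul_add, hx, hy]
  | smul c x _ hx =>
    simp only [Set.mem_ofPred_eq] at hx ⊢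
    rw [smul_mul_assoc, mul_smul_comm, hx]

lemma Dat.tendsto_of_gen (h : Dat J a) (Λ : ℕ → BB K → ℂ) (C : ℝ) (hC0 : 0 ≤ C)
    (hadd : ∀ n x y, Λ n (x + y) = Λ n x + Λ n y) (hsmul : ∀ n (c : ℂ) x, Λ n (c • x) = c * Λ n x)
    (hC : ∀ n x, ‖Λ n x‖ ≤ C * ‖x‖)
    (hgen : ∀ x ∈ UA a ∪ UJ J, Tendsto (fun n => Λ n x) atTop (𝓝 0)) {x : BB K} (hx : x ∈ h.alg) :
    Tendsto (fun n => Λ n x) atTop (𝓝 0) := by
  have h1 : ∀ y ∈ Submodule.span ℂ (UA a ∪ UJ J), Tendsto (fun n => Λ n y) atTop (𝓝 0) := by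
    intro y hy
    induction hy using Submodule.span_induction with
    | mem x hx => exact hgen x hx
    | zero =>
      have : ∀ n, Λ n 0 = 0 := fun n => by simpa using hsmul n 0 0
      simp [this]
    | add x y _ _ hx hy => simpa [hadd] using hx.add hy
    | smul c x _ hx => simpa [hsmul] using hx.const_mul c
  rw [NormedAddGroup.tendsto_nhds_zero]
  intro ε hε
  obtain ⟨y, hy, hxy⟩ := Metric.mem_closure_iff.1 (h.mem_alg.1 hx) (ε / (2 * (C + 1)))
    (by positivity)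
  filter_upwards [NormedAddGroup.tendsto_nhds_zero.1 (h1 y hy) (ε / 2) (by positivity)] with n hn
  have e : Λ n x = Λ n y + Λ n (x - y) := by rw [← hadd]; simp
  rw [e]
  refine (norm_add_le _ _).trans_lt ?_
  have c1 := hC n (x - y)
  rw [dist_eq_norm, lt_div_iff₀ (by positivity)] at hxy
  nlinarith [norm_nonneg (x - y)]

lemma norm_comm_le (f : LL ℤ K) (hf : ‖f‖ ≤ 1) (x y : BB K) :
    ‖⟪f, (x * y - y * x) f⟫_ℂ‖ ≤ 2 * ‖x‖ * ‖y‖ := by
  refine (norm_inner_le_norm _ _).trans ?_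
  have c1 := (x * y - y * x).le_opNorm f
  have c2 := norm_sub_le (x * y) (y * x)
  have c3 := norm_mul_le x y
  have c4 := norm_mul_le y x
  have c5 : ‖x * y - y * x‖ * ‖f‖ ≤ ‖x * y - y * x‖ * 1 := by gcongr
  have c6 : ‖f‖ * ‖(x * y - y * x) f‖ ≤ 1 * ‖(x * y - y * x) f‖ := by gcongr
  linarith

lemma Dat.trace (h : Dat J a) {ξ : K} (hξ : ‖ξ‖ = 1)
    (htr : ∀ g g', ⟪ξ, a (g * g') ξ⟫_ℂ = ⟪ξ, a (g' * g) ξ⟫_ℂ) {x y : BB K} (hx : x ∈ h.alg)
    (hy : y ∈ h.alg) :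
    Tendsto (fun n : ℕ => ⟪sgl (n : ℤ) ξ, (x * y - y * x) (sgl (n : ℤ) ξ)⟫_ℂ) atTop (𝓝 0) := by
  have hn : ∀ n : ℕ, ‖sgl (n : ℤ) ξ‖ ≤ 1 := fun n => by rw [norm_sgl, hξ]
  have hU : ∀ z ∈ UJ J, ∀ᶠ n : ℕ in atTop, z (sgl (n : ℤ) ξ) = 0 := by
    rintro _ ⟨i, j, T, -, rfl⟩
    filter_upwards [eventually_gt_atTop j.toNat] with n hn
    rw [un_apply, sgl_apply, if_neg (by omega), map_zero, map_zero]
  refine h.tendsto_of_gen (fun n x => ⟪sgl (n : ℤ) ξ, (x * y - y * x) (sgl (n : ℤ) ξ)⟫_ℂ)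
    (2 * ‖y‖) (by positivity) (fun n x x' => ?_) (fun n c x => ?_)
    (fun n x => (norm_comm_le _ (hn n) _ _).trans_eq (by ring)) (fun x hx => ?_) hx
  · rw [← inner_add_right, ← add_apply]
    congr 2
    noncomm_ring
  · rw [← inner_smul_right, ← smul_apply, smul_mul_assoc, mul_smul_comm,
      smul_sub]
  refine h.tendsto_of_gen (fun n y => ⟪sgl (n : ℤ) ξ, (x * y - y * x) (sgl (n : ℤ) ξ)⟫_ℂ)
    (2 * ‖x‖) (by positivity) (fun n y y' => ?_) (fun n c y => ?_)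
    (fun n y => norm_comm_le _ (hn n) _ _) (fun y hy => ?_) hy
  · rw [← inner_add_right, ← add_apply]
    congr 2
    noncomm_ring
  · rw [← inner_smul_right, ← smul_apply, smul_mul_assoc, mul_smul_comm,
      smul_sub]
  have hcase : x * y ∈ UJ J → y * x ∈ UJ J → Tendsto
      (fun n : ℕ => ⟪sgl (n : ℤ) ξ, (x * y - y * x) (sgl (n : ℤ) ξ)⟫_ℂ) atTop (𝓝 0) := by
    intro h1 h2
    refine tendsto_const_nhds.congr' ?_
    filter_upwards [hU _ h1, hU _ h2] with n e1 e2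
    rw [sub_apply, e1, e2, sub_self, inner_zero_right]
  rcases hx with hx | hx
  · rcases hy with hy | hy
    · obtain ⟨g, rfl⟩ := hx
      obtain ⟨g', rfl⟩ := hy
      refine tendsto_const_nhds.congr fun n => ?_
      simp only [← cst_mul, ← map_mul, ← cst_sub, inner_sgl_left, cst_apply, sgl_apply, if_true,
        sub_apply, inner_sub_right, htr g g', sub_self]
    · exact hcase (h.mul_UJ (Or.inl hx) hy) (h.UJ_mul hy (Or.inl hx))
  · exact hcase (h.UJ_mul hx hy) (h.mul_UJ hy hx)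

lemma vanish (hJ : ∀ T ∈ J, star T ∈ J) {ζ : ℕ → LL ℤ K} (hζ : ∀ n, ‖ζ n‖ ≤ 1)
    (h : ∀ x ∈ UJ J, ∀ y ∈ UJ J,
      Tendsto (fun n => ⟪ζ n, (x * y - y * x) (ζ n)⟫_ℂ) atTop (𝓝 0))
    (T : K →L[ℂ] K) (hT : T ∈ J) (j : ℤ) : Tendsto (fun n => T (ζ n j)) atTop (𝓝 0) := by
  have h1 : ∀ i : ℤ, Tendsto (fun n => ‖T (ζ n j)‖ ^ 2 - ‖star T (ζ n i)‖ ^ 2) atTop (𝓝 0) := by
    intro i
    have := (Complex.continuous_re.tendsto 0).comp
      (h _ ⟨j, i, _, hJ T hT, rfl⟩ _ ⟨i, j, T, hT, rfl⟩)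
    refine this.congr fun n => ?_
    simp only [Function.comp_apply, un_mul_un, if_true, sub_apply,
      inner_sub_right, un_apply, inner_sgl_right, mul_apply_eq_comp, Complex.sub_re]
    rw [ContinuousLinearMap.star_eq_adjoint, ContinuousLinearMap.adjoint_inner_right,
      ← ContinuousLinearMap.adjoint_inner_left T (ContinuousLinearMap.adjoint T _),
      inner_self_eq_norm_sq_to_K,
      inner_self_eq_norm_sq_to_K]
    norm_cast
  rw [NormedAddGroup.tendsto_nhds_zero]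
  intro ε hε
  obtain ⟨N, hN⟩ := exists_nat_gt ((‖T‖ ^ 2 + 1) / ε ^ 2)
  have h2 := tendsto_finsetSum (Finset.Ico (0 : ℤ) N) fun i _ => h1 i
  rw [Finset.sum_const_zero] at h2
  filter_upwards [h2.eventually (gt_mem_nhds zero_lt_one)] with n hn
  rw [Finset.sum_sub_distrib, Finset.sum_const, Int.card_Ico, nsmul_eq_mul] at hn
  simp only [sub_zero, Int.toNat_natCast] at hn
  have h3 : ∑ i ∈ Finset.Ico (0 : ℤ) N, ‖star T (ζ n i)‖ ^ 2 ≤ ‖T‖ ^ 2 := by
    refine (Finset.sum_le_sum (g := fun i => ‖T‖ ^ 2 * ‖ζ n i‖ ^ 2) fun i _ => ?_).trans ?_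
    · rw [← mul_pow, ← norm_star T]
      gcongr
      exact (star T).le_opNorm _
    · rw [← Finset.mul_sum]
      have c1 := sum_coord_le (Finset.Ico (0 : ℤ) N) (ζ n)
      have c2 : ‖ζ n‖ ^ 2 ≤ 1 := pow_le_one₀ (norm_nonneg _) (hζ n)
      nlinarith [sq_nonneg ‖T‖]
  rw [div_lt_iff₀ (by positivity)] at hN
  by_contra hc
  push Not at hc
  have : (N : ℝ) * ε ^ 2 ≤ N * ‖T (ζ n j)‖ ^ 2 := by gcongr
  linarith

end Crest.Agent.R78.Sep
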